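import Vale.Agent.P231W52.St

/-! P231: geodesics and the exponential map. -/

set_option maxSynthPendingDepth 3

open Bundle Manifold Set Filter
open scoped ContDiff Manifold Topology

namespace Vale.Agent.P231Iso

noncomputable section

variable (E : Type*) [NormedAddCommGroup E] [NormedSpace ℝ E]
  {M : Type*} [MetricSpace M] [ChartedSpace E M]
  [RiemannianBundle (fun x : M => TangentSpace 𝓘(ℝ, E) x)]

/-- the coefficients `g_q(a, b)` of the Riemannian metric in the chart at `p` -/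
def gc (p : M) (q a b : E) : ℝ :=
  inner ℝ (mfderiv 𝓘(ℝ, E) 𝓘(ℝ, E) (extChartAt 𝓘(ℝ, E) p).symm q a)
    (mfderiv 𝓘(ℝ, E) 𝓘(ℝ, E) (extChartAt 𝓘(ℝ, E) p).symm q b)

/-- the geodesic equation at time `t` for a curve `c` in the chart at `p`:
`g_kl c''^k + (∂_i g_jl - ∂_l g_ij / 2) c'^i c'^j = 0` for all `l` -/
def GeodEq (p : M) (c : ℝ → E) (t : ℝ) : Prop :=
  ∀ b : E, gc E p (c t) (deriv (deriv c) t) b +
    (fderiv ℝ (fun q => gc E p q (deriv c t) b) (c t) (deriv c t) -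
      fderiv ℝ (fun q => gc E p q (deriv c t) (deriv c t)) (c t) b / 2) = 0

/-- a geodesic: a smooth curve which near every time `t₀` solves the geodesic equation in the
chart at `γ t₀` -/
def IsGeodesic (γ : ℝ → M) : Prop :=
  ContMDiff 𝓘(ℝ, ℝ) 𝓘(ℝ, E) ∞ γ ∧
    ∀ t₀ : ℝ, ∀ᶠ t in 𝓝 t₀, GeodEq E (γ t₀) (fun s => extChartAt 𝓘(ℝ, E) (γ t₀) (γ s)) t

variable {E} in
/-- the exponential map: `e x v = γ 1` for a geodesic `γ` with `γ 0 = x` and `γ' 0 = v` -/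
def IsExponential (e : ∀ x : M, TangentSpace 𝓘(ℝ, E) x → M) : Prop :=
  ∀ (x : M) (v : TangentSpace 𝓘(ℝ, E) x), ∃ γ : ℝ → M, IsGeodesic E γ ∧ γ 0 = x ∧
    mfderiv 𝓘(ℝ, ℝ) 𝓘(ℝ, E) γ 0 (1 : ℝ) = (v : E) ∧ γ 1 = e x v

end

end Vale.Agent.P231Iso
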