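import Vale.Agent.P231W52.Flat
import Vale.Agent.P231W52.StG

/-! P231W: the rays of the exponential map are the solutions of the geodesic equation. -/

set_option maxSynthPendingDepth 3
set_option linter.unusedSectionVars false

open Bundle Manifold Set Filter
open scoped ContDiff Manifold Topology

namespace Vale.Agent.P231W52

open Vale.Agent.P234 Vale.Agent.P231Iso

noncomputable section

variable {E : Type*} [NormedAddCommGroup E] [NormedSpace ℝ E] [FiniteDimensional ℝ E]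
  {M : Type*} [MetricSpace M] [ChartedSpace E M] [IsManifold 𝓘(ℝ, E) ∞ M]
  [RiemannianBundle (fun x : M => TangentSpace 𝓘(ℝ, E) x)]
  [IsContMDiffRiemannianBundle 𝓘(ℝ, E) ∞ E (fun x : M => TangentSpace 𝓘(ℝ, E) x)]
  {e : ∀ x : M, TangentSpace 𝓘(ℝ, E) x → M}

set_option backward.isDefEq.respectTransparency false in
/-- the chart data with the spray -/
theorem exists_data (p : M) : ∃ (G : E → E →L[ℝ] E →L[ℝ] ℝ) (X L : E × E → E)
    (S : E → E →L[ℝ] E →L[ℝ] E), FlatData p G X L ∧ ContDiff ℝ ∞ S ∧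
      (∀ᶠ z in 𝓝 ((extChartAt 𝓘(ℝ, E) p p, 0) : E × E), ∀ t ∈ Ioo (0 : ℝ) 1,
        deriv (deriv (fun s : ℝ => X (z.1, s • z.2))) t =
          S (X (z.1, t • z.2)) (deriv (fun s : ℝ => X (z.1, s • z.2)) t)
            (deriv (fun s : ℝ => X (z.1, s • z.2)) t)) ∧
      ∀ᶠ q in 𝓝 (extChartAt 𝓘(ℝ, E) p p), ∀ (c : ℝ → E) (t : ℝ), c t = q →
        (GeodEq E p c t ↔ deriv (deriv c) t = S (c t) (deriv c t) (deriv c t)) := by
  obtain ⟨G, hGs, hG⟩ := exists_chart_metric (E := E) p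
  have hpos : ∀ c ∈ (extChartAt 𝓘(ℝ, E) p).target, ∀ a : E, a ≠ 0 → 0 < G c a a :=
    fun c hc a ha => by
      rw [hG c hc, real_inner_self_eq_norm_sq]
      have h0 : dch p c a ≠ 0 := fun h0 => ha (dch_injective p hc (by rw [h0, map_zero]))
      have := norm_pos_iff.2 h0
      positivity
  have hO := isOpen_extChartAt_target (I := 𝓘(ℝ, E)) p
  obtain ⟨X, L, S, g1, g2, g3, h1, h2, h3, h4, h5, h6, h7, h8, h9, h10⟩ :=
    exists_flat' hO hGs (fun c hc a b => by rw [hG c hc, hG c hc, real_inner_comm]) hpos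
      (mem_extChartAt_target p)
  refine ⟨G, X, L, S, ⟨hGs, hG, h1, h2, h3, h4, h5, h6, h7, h8, h9, h10⟩, g3, g2, ?_⟩
  have e1 : ∀ q ∈ (extChartAt 𝓘(ℝ, E) p).target, ∀ a b : E, gc E p q a b = G q a b :=
    fun q hq a b => by rw [hG q hq, dch_eq_mfderiv p hq, dch_eq_mfderiv p hq]; rfl
  have e2 : ∀ q ∈ (extChartAt 𝓘(ℝ, E) p).target, ∀ a b u : E,
      fderiv ℝ (fun q => gc E p q a b) q u = fderiv ℝ G q u a b := by
    intro q hq a b u
    have k1 := ((hGs.contDiffAt (hO.mem_nhds hq)).differentiableAt (by simp)).hasFDerivAt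
    have k2 := (k1.clm_apply (hasFDerivAt_const a q)).clm_apply (hasFDerivAt_const b q)
    have k3 : (fun q => gc E p q a b) =ᶠ[𝓝 q] fun q => G q a b :=
      Filter.mem_of_superset (hO.mem_nhds hq) fun r hr => e1 r hr a b
    rw [k3.fderiv_eq, k2.fderiv]
    simp
  filter_upwards [g1, hO.mem_nhds (mem_extChartAt_target p)] with q k1 hq c t hct
  subst hct
  unfold GeodEq
  simp only [e1 _ hq, e2 _ hq]
  refine ⟨fun h => ?_, fun h b => by rw [h, k1]; ring⟩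
  by_contra h0
  have k2 := hpos _ hq _ (sub_ne_zero.2 h0)
  rw [map_sub (G (c t)), sub_apply, k1] at k2
  linarith [h (deriv (deriv c) t - S (c t) (deriv c t) (deriv c t))]

theorem smooth_chart {γ : ℝ → M} (hγ : ContMDiff 𝓘(ℝ, ℝ) 𝓘(ℝ, E) ∞ γ) {t₀ : ℝ} {p : M}
    (hp : γ t₀ = p) : (∀ᶠ t in 𝓝 t₀, γ t ∈ (chartAt E p).source) ∧
      ∀ᶠ t in 𝓝 t₀, ContDiffAt ℝ ∞ (fun s => extChartAt 𝓘(ℝ, E) p (γ s)) t := by
  have h1 : ∀ᶠ t in 𝓝 t₀, γ t ∈ (chartAt E p).source :=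
    hγ.continuous.continuousAt ((chartAt E p).open_source.mem_nhds (hp ▸ mem_chart_source E _))
  exact ⟨h1, h1.mono fun t ht =>
    ((contMDiffAt_extChartAt' ht).comp t (hγ t)).contDiffAt⟩

/-- local uniqueness of geodesics -/
theorem geod_local {γ δ : ℝ → M} (hγ : IsGeodesic E γ) (hδ : IsGeodesic E δ) {t₀ : ℝ} {p : M}
    (h1 : γ t₀ = p) (h2 : δ t₀ = p)
    (h3 : deriv (fun s => extChartAt 𝓘(ℝ, E) p (γ s)) t₀ =
      deriv (fun s => extChartAt 𝓘(ℝ, E) p (δ s)) t₀) : γ =ᶠ[𝓝 t₀] δ := by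
  obtain ⟨-, -, -, S, -, hS, -, hq⟩ := exists_data (E := E) p
  have key : ∀ γ : ℝ → M, IsGeodesic E γ → γ t₀ = p → ∀ᶠ t in 𝓝 t₀,
      deriv (deriv fun s => extChartAt 𝓘(ℝ, E) p (γ s)) t =
        S (extChartAt 𝓘(ℝ, E) p (γ t)) (deriv (fun s => extChartAt 𝓘(ℝ, E) p (γ s)) t)
          (deriv (fun s => extChartAt 𝓘(ℝ, E) p (γ s)) t) := by
    intro γ hγ h1
    have k1 := (smooth_chart hγ.1 h1).2.self_of_nhds.continuousAt.tendsto
    have k2 := hγ.2 t₀
    simp only [h1] at k1 k2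
    filter_upwards [k1.eventually hq, k2] with t k3 k4
    exact (k3 _ t rfl).1 k4
  have h4 := ode_unique hS (smooth_chart hγ.1 h1).2 (smooth_chart hδ.1 h2).2 (key γ hγ h1)
    (key δ hδ h2) (by simp only [h1, h2]) h3
  filter_upwards [h4, (smooth_chart hγ.1 h1).1, (smooth_chart hδ.1 h2).1] with t k1 k2 k3
  exact (extChartAt 𝓘(ℝ, E) p).injOn (by rwa [extChartAt_source]) (by rwa [extChartAt_source]) k1

theorem deriv_chart {γ : ℝ → M} (hγ : ContMDiff 𝓘(ℝ, ℝ) 𝓘(ℝ, E) ∞ γ) (t : ℝ) :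
    deriv (fun s => extChartAt 𝓘(ℝ, E) (γ t) (γ s)) t =
      (mfderiv 𝓘(ℝ, ℝ) 𝓘(ℝ, E) γ t (1 : ℝ) : E) := by
  have h1 := ((hγ t).mdifferentiableAt (by simp)).hasMFDerivAt.2
  rw [modelWithCornersSelf_coe, range_id] at h1
  have h2 : HasFDerivAt (𝕜 := ℝ) (E := ℝ) (F := E) (fun s => extChartAt 𝓘(ℝ, E) (γ t) (γ s)) _ t :=
    hasFDerivWithinAt_univ.1 h1
  exact h2.hasDerivAt.deriv

/-- global uniqueness of geodesics -/
theorem geod_unique {γ δ : ℝ → M} (hγ : IsGeodesic E γ) (hδ : IsGeodesic E δ) (h1 : γ 0 = δ 0)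
    (h2 : (mfderiv 𝓘(ℝ, ℝ) 𝓘(ℝ, E) γ 0 (1 : ℝ) : E) = mfderiv 𝓘(ℝ, ℝ) 𝓘(ℝ, E) δ 0 (1 : ℝ)) :
    γ = δ := by
  have h3 : γ =ᶠ[𝓝 0] δ := geod_local hγ hδ rfl h1.symm (by
    rw [deriv_chart hγ.1, h1, deriv_chart hδ.1]
    exact h2)
  have h4 := isPreconnected_univ.subset_of_closure_inter_subset
    (u := {t : ℝ | γ =ᶠ[𝓝 t] δ}) isOpen_setOfPred_eventually_nhds ⟨0, mem_univ _, h3⟩ (by
      rintro t ⟨ht, -⟩
      have k0 := mem_closure_iff_frequently.1 ht
      have k1 : γ t = δ t := tendsto_nhds_unique_of_frequently_eq hγ.1.continuous.continuousAt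
        hδ.1.continuous.continuousAt (k0.mono fun s hs => hs.self_of_nhds)
      have k2 : ∀ γ : ℝ → M, IsGeodesic E γ → γ t = δ t →
          ContinuousAt (deriv fun s => extChartAt 𝓘(ℝ, E) (δ t) (γ s)) t := fun γ hγ h =>
        ((smooth_chart hγ.1 h).2.self_of_nhds.derivWithin (m := 0) (by simp)).continuousAt
      refine geod_local hγ hδ k1 rfl (tendsto_nhds_unique_of_frequently_eq (k2 γ hγ k1)
        (k2 δ hδ rfl) (k0.mono fun s hs => ?_))
      exact (EventuallyEq.fun_comp hs (extChartAt 𝓘(ℝ, E) (δ t))).deriv_eq)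
  funext t
  exact (h4 (mem_univ t)).self_of_nhds

variable [IsRiemannianManifold 𝓘(ℝ, E) M] [CompactSpace M] [ConnectedSpace M]

theorem ray_deriv (he : IsExp e) {f : M → ℝ} {x : M}
    (hf : MDifferentiableAt 𝓘(ℝ, E) 𝓘(ℝ, ℝ) f x) (w : TangentSpace 𝓘(ℝ, E) x) :
    HasDerivAt (fun t : ℝ => f (e x (t • w))) (dfun f x w) 0 := by
  have h1 := ((contMDiff_ray he x w).mdifferentiableAt (x := 0) (by simp)).hasMFDerivAt
  have h2 : ∀ y, y = x → HasMFDerivAt 𝓘(ℝ, E) 𝓘(ℝ, ℝ) f y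
      (mfderiv 𝓘(ℝ, E) 𝓘(ℝ, ℝ) f x : E →L[ℝ] ℝ) := by
    rintro y rfl
    exact hf.hasMFDerivAt
  have h3 := (h2 (e x ((0 : ℝ) • w)) (by rw [zero_smul, he.map_zero])).comp (0 : ℝ) h1
  have h6 : HasFDerivAt (𝕜 := ℝ) (E := ℝ) (F := ℝ) (fun t : ℝ => f (e x (t • w))) _ 0 :=
    hasMFDerivAt_iff_hasFDerivAt.1 h3
  refine h6.hasDerivAt.congr_deriv ?_
  exact congrArg (mfderiv 𝓘(ℝ, E) 𝓘(ℝ, ℝ) f x : E →L[ℝ] ℝ) (he.velocity x w)

/-- the exponential map agrees with a local exponential map on short vectors -/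
theorem agree_loc (he : IsExp e) {p : M} {e₁ : ∀ x : M, TangentSpace 𝓘(ℝ, E) x → M}
    {L₁ : ∀ x : M, M → TangentSpace 𝓘(ℝ, E) x} (h : IsLocExp p e₁ L₁) :
    ∀ᶠ u in 𝓝 (0 : TangentSpace 𝓘(ℝ, E) p), e p u = e₁ p u := by
  obtain ⟨ρ, hρ, hm, hn⟩ := sh_scale he
  have h1 : Tendsto (fun u : TangentSpace 𝓘(ℝ, E) p => (p, e p u)) (𝓝 0) (𝓝 (p, p)) :=
    Continuous.tendsto' (continuous_const.prodMk (contMDiff_exp_fiber he p).continuous) _ _
      (by rw [he.map_zero])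
  filter_upwards [h1.eventually h.grad, h1.eventually h.exp_log, Metric.ball_mem_nhds 0 hρ]
    with u k1 k2 k3
  rw [mem_ball_zero_iff] at k3
  have k4 : dist p (e p u) = ‖u‖ := by
    have := hm p u 0 1 (by simpa using k3.le)
    simpa [he.map_zero] using this
  have k5 := hasFDerivAt_cost_zero he p u k4 (hn _ _ (k4.trans_lt k3)).1
  have k6 : L₁ p (e p u) = u := by
    refine ext_inner_right ℝ fun w => ?_
    have k7 : HasDerivAt (fun t : ℝ => t • w) w 0 := by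
      simpa using (hasDerivAt_id (0 : ℝ)).smul_const w
    have k8 := (k5.comp_hasDerivAt_of_eq 0 k7 (zero_smul ℝ w).symm).unique (ray_deriv he k1.1 w)
    have k9 := k8.trans (k1.2 w)
    simpa using k9.symm
  have k10 : e₁ p (L₁ p (e p u)) = e p u := k2
  rw [k6] at k10
  exact k10.symm

set_option backward.isDefEq.respectTransparency false in
theorem geodEq_zero (he : IsExp e) (p : M) (w : TangentSpace 𝓘(ℝ, E) p) :
    ∀ᶠ t in 𝓝 (0 : ℝ), GeodEq E p (fun s => extChartAt 𝓘(ℝ, E) p (e p (s • w))) t := by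
  obtain ⟨G, X, L, S, hF, hS, hode, hq⟩ := exists_data (E := E) p
  have h0 : e p ((0 : ℝ) • w) = p := by rw [zero_smul, he.map_zero]
  have h1 := (smooth_chart (contMDiff_ray he p w) h0).2
  have h2 : Tendsto (fun s : ℝ => s • w) (𝓝 0) (𝓝 0) :=
    Continuous.tendsto' (by fun_prop) _ _ (zero_smul ℝ w)
  have h3 : Tendsto (fun v : E => ((extChartAt 𝓘(ℝ, E) p p, v) : E × E)) (𝓝 0) (𝓝 (_, 0)) :=
    (continuous_const.prodMk continuous_id).tendsto 0
  have h4 : (fun s : ℝ => extChartAt 𝓘(ℝ, E) p (e p (s • w))) =ᶠ[𝓝 0]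
      fun s : ℝ => X (extChartAt 𝓘(ℝ, E) p p, s • (w : E)) := by
    filter_upwards [h2.eventually (agree_loc he hF.isLocExp), h2.eventually (h3.eventually hF.memX)]
      with s k1 k2
    have k3 : crd p p (s • w) = s • (w : E) := by
      unfold crd
      rw [TangentBundle.continuousLinearMapAt_trivializationAt (mem_chart_source E p),
        mfderiv_extChartAt_self]
      rfl
    rw [k1, locE, k3]
    exact (extChartAt 𝓘(ℝ, E) p).right_inv k2
  have h5 := ode_near hS (Y := fun v => X (extChartAt 𝓘(ℝ, E) p p, v)) (w : E)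
    (h3.eventually hode) (h1.self_of_nhds.congr_of_eventuallyEq h4.symm)
  have h6 := h1.self_of_nhds.continuousAt.tendsto
  simp only [h0] at h6
  filter_upwards [h5, h6.eventually hq, h4, h4.deriv, h4.deriv.deriv] with t k1 k2 k3 k4 k5
  refine (k2 _ t rfl).2 ?_
  rw [k5, k4, k3]
  exact k1

theorem isGeodesic_ray (he : IsExp e) (x : M) (v : TangentSpace 𝓘(ℝ, E) x) :
    IsGeodesic E fun t : ℝ => e x (t • v) := by
  refine ⟨contMDiff_ray he x v, fun t₀ => ?_⟩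
  obtain ⟨w, -, hw⟩ := (facts_of_isExp he).flow x v t₀
  have h1 := geodEq_zero he _ w
  simp only [hw] at h1
  have h2 : Tendsto (fun t : ℝ => t - t₀) (𝓝 t₀) (𝓝 0) :=
    Continuous.tendsto' (by fun_prop) _ _ (sub_self t₀)
  filter_upwards [h2.eventually h1] with t ht b
  have h3 := ht b
  have h4 : ∀ f : ℝ → E, deriv (fun s => f (t₀ + s)) = fun s => deriv f (t₀ + s) := fun f =>
    funext fun s => deriv_comp_const_add f t₀ s
  rw [h4 fun s => extChartAt 𝓘(ℝ, E) (e x (t₀ • v)) (e x (s • v)), h4] at h3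
  simp only [add_sub_cancel] at h3
  exact h3

theorem isExponential (he : IsExp e) : IsExponential e := fun x v =>
  ⟨_, isGeodesic_ray he x v, by simp only [zero_smul, he.map_zero], he.velocity x v,
    by simp only [one_smul]⟩

theorem isExponential_unique (he : IsExp e) {e' : ∀ x : M, TangentSpace 𝓘(ℝ, E) x → M}
    (he' : IsExponential e') : e' = e := by
  funext x v
  obtain ⟨γ, h1, h2, h3, h4⟩ := he' x v
  have h5 := geod_unique h1 (isGeodesic_ray he x v)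
    (by simp only [h2, zero_smul, he.map_zero]) (h3.trans (he.velocity x v).symm)
  rw [← h4, h5]
  simp only [one_smul]

end

end Vale.Agent.P231W52
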