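import Mathlib.Geometry.Manifold.SmoothEmbedding
import Mathlib.Geometry.Manifold.MFDeriv.Atlas
import Mathlib.Geometry.Manifold.MFDeriv.FDeriv
import Mathlib.Geometry.Manifold.ContMDiff.NormedSpace
import Mathlib.Analysis.Calculus.InverseFunctionTheorem.ContDiff
import Mathlib.Analysis.InnerProductSpace.PiL2

/-! P231W: an injective smooth map with injective differential from a compact manifold to a
finite dimensional vector space is a smooth embedding. -/

open Manifold Set Filter Module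
open scoped ContDiff Manifold Topology

namespace Vale.Agent.P231W52

variable {E : Type*} [NormedAddCommGroup E] [NormedSpace ℝ E] [FiniteDimensional ℝ E]
  {W : Type*} [NormedAddCommGroup W] [NormedSpace ℝ W] [FiniteDimensional ℝ W]

theorem exists_equiv (A : E →L[ℝ] W) (hA : Function.Injective A) :
    ∃ T : (E × EuclideanSpace ℝ (Fin (finrank ℝ W - finrank ℝ E))) ≃L[ℝ] W,
      ∀ u, T (u, 0) = A u := by
  obtain ⟨C, hC⟩ := (LinearMap.range (A : E →ₗ[ℝ] W)).exists_isCompl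
  have h1 := Submodule.finrank_add_eq_of_isCompl hC
  rw [LinearMap.finrank_range_of_inj hA] at h1
  let j : EuclideanSpace ℝ (Fin (finrank ℝ W - finrank ℝ E)) ≃ₗ[ℝ] C :=
    LinearEquiv.ofFinrankEq _ _ (by rw [finrank_euclideanSpace_fin]; omega)
  refine ⟨(((LinearEquiv.ofInjective (A : E →ₗ[ℝ] W) hA).prodCongr j).trans
    (Submodule.prodEquivOfIsCompl _ _ hC)).toContinuousLinearEquiv, fun u => ?_⟩
  simp [Submodule.coe_prodEquivOfIsCompl']

/-- a local diffeomorphism with smooth inverse, from the inverse function theorem -/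
theorem exists_local {G : W → W} {O : Set W} (hO : IsOpen O) (hG : ContDiffOn ℝ ∞ G O) {w : W}
    (hw : w ∈ O) (hd : HasFDerivAt G (ContinuousLinearEquiv.refl ℝ W : W →L[ℝ] W) w) :
    ∃ h : OpenPartialHomeomorph W W, (h : W → W) = G ∧ w ∈ h.source ∧
      h.symm ∈ IsManifold.maximalAtlas 𝓘(ℝ, W) ∞ W := by
  have : CompleteSpace W := FiniteDimensional.complete ℝ W
  have h1 : ∀ y ∈ O, ContDiffAt ℝ ∞ G y := fun y hy => hG.contDiffAt (hO.mem_nhds hy)
  have h2 : IsOpen (O ∩ fderiv ℝ G ⁻¹' range ((↑) : (W ≃L[ℝ] W) → W →L[ℝ] W)) :=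
    (hG.continuousOn_fderiv_of_isOpen hO (by simp)).isOpen_inter_preimage hO
      ContinuousLinearEquiv.isOpen
  let h := ((h1 w hw).toOpenPartialHomeomorph G hd (by simp)).restrOpen _ h2
  refine ⟨h, rfl, ⟨(h1 w hw).mem_toOpenPartialHomeomorph_source hd (by simp), hw,
    _, hd.fderiv.symm⟩, h.symm.mem_maximalAtlas_of_contMDiffOn (fun y hy => ?_) fun y hy => ?_⟩
  · have h3 := h.map_target hy
    obtain ⟨A, hA⟩ := h3.2.2
    have h4 := ((h1 _ h3.2.1).differentiableAt (by simp)).hasFDerivAt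
    rw [← hA] at h4
    exact (h.contDiffAt_symm hy h4 (h1 _ h3.2.1)).contMDiffAt.contMDiffWithinAt
  · exact (h1 y hy.2.1).contMDiffAt.contMDiffWithinAt

variable {M : Type*} [TopologicalSpace M] [ChartedSpace E M] [IsManifold 𝓘(ℝ, E) ∞ M]

theorem isImmersionAt {Φ : M → W} (hs : ContMDiff 𝓘(ℝ, E) 𝓘(ℝ, W) ∞ Φ) (p : M)
    (hd : Function.Injective (mfderiv 𝓘(ℝ, E) 𝓘(ℝ, W) Φ p)) :
    IsImmersionAtOfComplement (EuclideanSpace ℝ (Fin (finrank ℝ W - finrank ℝ E)))
      𝓘(ℝ, E) 𝓘(ℝ, W) ∞ Φ p := by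
  obtain ⟨A, hA0⟩ : ∃ A : E →L[ℝ] W, A = mfderiv 𝓘(ℝ, E) 𝓘(ℝ, W) Φ p := ⟨_, rfl⟩
  obtain ⟨T, hT⟩ := exists_equiv A (by rw [hA0]; exact hd)
  let φ := chartAt E p
  let f : E → W := Φ ∘ φ.symm
  have hf : ContDiffOn ℝ ∞ f φ.target :=
    (hs.comp_contMDiffOn contMDiffOn_chart_symm).contDiffOn
  have hp : φ p ∈ φ.target := mem_chart_target E p
  have hA : HasFDerivAt f A (φ p) := by
    have h1 := ((hs p).mdifferentiableAt (by simp)).hasMFDerivAt.2
    rw [modelWithCornersSelf_coe, range_id] at h1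
    rw [hA0]
    exact hasFDerivWithinAt_univ.1 h1
  let P : W →L[ℝ] E := (ContinuousLinearMap.fst ℝ _ _).comp T.symm.toContinuousLinearMap
  let Q : W →L[ℝ] W := T.toContinuousLinearMap.comp ((ContinuousLinearMap.inr ℝ E _).comp
    ((ContinuousLinearMap.snd ℝ _ _).comp T.symm.toContinuousLinearMap))
  have hP : ∀ u, P (T (u, 0)) = u := fun u => by simp [P]
  have hQ : ∀ u, Q (T (u, 0)) = 0 := fun u => by simp [Q]
  obtain ⟨h, h1, h2, h3⟩ := exists_local (G := fun w => f (P w) + Q w) (O := P ⁻¹' φ.target)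
    (φ.open_target.preimage P.continuous)
    ((hf.comp P.contDiff.contDiffOn fun _ hw => hw).add Q.contDiff.contDiffOn)
    (w := T (φ p, 0)) (by show P _ ∈ φ.target; rwa [hP]) (by
      have h4 : HasFDerivAt f A (P (T (φ p, 0))) := by rwa [hP]
      refine ((h4.comp _ P.hasFDerivAt).add Q.hasFDerivAt).congr_fderiv ?_
      ext w
      have h5 := hT (P w)
      have h6 : T (P w, 0) + Q w = w := by
        show T ((T.symm w).1, 0) + T (0, (T.symm w).2) = w
        rw [← map_add, Prod.mk_add_mk, add_zero, zero_add, T.apply_symm_apply]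
      rw [h5] at h6
      exact h6)
  have h4 : ∀ u, h (T (u, 0)) = f u := fun u => by rw [h1]; simp only [hP, hQ, add_zero]
  have h5 : IsOpen (φ.source ∩ φ ⁻¹' {u | T (u, 0) ∈ h.source}) :=
    φ.continuousOn.isOpen_inter_preimage φ.open_source
      (h.open_source.preimage (f := fun u => T (u, 0)) (by fun_prop))
  have h6 : p ∈ φ.source := mem_chart_source E p
  refine IsImmersionAtOfComplement.mk_of_continuousAt (hs p).continuousAt T (φ.restr _) h.symm
    (by rw [φ.restr_source' _ h5]; exact ⟨h6, h6, h2⟩) ?_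
    (restr_mem_maximalAtlas _ (IsManifold.chart_mem_maximalAtlas p) h5) h3 fun u hu => ?_
  · have h7 := h.map_source h2
    rw [h4] at h7
    have h8 : f (φ p) = Φ p := congrArg Φ (φ.left_inv h6)
    rwa [h8] at h7
  · have h7 : u ∈ (φ.restr (φ.source ∩ φ ⁻¹' {u | T (u, 0) ∈ h.source})).target := by
      simpa using hu
    have h8 := (φ.restr _).map_target h7
    rw [φ.restr_source' _ h5] at h8
    have h9 : T (φ (φ.symm u), 0) ∈ h.source := h8.2.2
    rw [φ.right_inv h7.1] at h9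
    show h.symm (f u) = T (u, 0)
    rw [← h4, h.left_inv h9]

theorem isSmoothEmbedding [CompactSpace M] {Φ : M → W} (hs : ContMDiff 𝓘(ℝ, E) 𝓘(ℝ, W) ∞ Φ)
    (hi : Function.Injective Φ) (hd : ∀ p, Function.Injective (mfderiv 𝓘(ℝ, E) 𝓘(ℝ, W) Φ p)) :
    IsSmoothEmbedding 𝓘(ℝ, E) 𝓘(ℝ, W) ∞ Φ :=
  ⟨IsImmersionOfComplement.isImmersion fun p => isImmersionAt hs p (hd p),
    (hs.continuous.isClosedEmbedding hi).isEmbedding⟩

end Vale.Agent.P231W52
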