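import Vale.Agent.P231W52.Models

/-! P231W: the injectivity radius and the diameter. -/

set_option maxSynthPendingDepth 3
set_option linter.unusedSectionVars false

open Bundle Manifold Set Filter Module
open scoped ContDiff Manifold Topology ENNReal

namespace Vale.Agent.P231W52

open Vale.Agent.P234 Vale.Agent.P231

noncomputable section

variable {E : Type*} [NormedAddCommGroup E] [NormedSpace ℝ E] [FiniteDimensional ℝ E]
  {M : Type*} [MetricSpace M] [ChartedSpace E M] [IsManifold 𝓘(ℝ, E) ∞ M]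
  [RiemannianBundle (fun x : M => TangentSpace 𝓘(ℝ, E) x)]
  [IsContMDiffRiemannianBundle 𝓘(ℝ, E) ∞ E (fun x : M => TangentSpace 𝓘(ℝ, E) x)]
  {e : ∀ x : M, TangentSpace 𝓘(ℝ, E) x → M} {D : ℝ}

theorem DiffeoOnBall.injOn {p : M} {r : ℝ} (h : DiffeoOnBall e p r) :
    InjOn (e p) (Metric.ball 0 r) := by
  obtain ⟨φ, h1, h2⟩ := h
  intro v hv w hw hvw
  rw [← h1] at hv hw
  exact φ.toPartialEquiv.injOn hv hw (((h2 v hv).trans hvw).trans (h2 w hw).symm)

theorem injOn_of_le (h : ENNReal.ofReal D ≤ inj e) (p : M) :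
    InjOn (e p) (Metric.ball 0 D) := by
  intro v hv w hw hvw
  rw [mem_ball_zero_iff] at hv hw
  have h0 : 0 ≤ max ‖v‖ ‖w‖ := le_max_of_le_left (norm_nonneg v)
  have h1 : ENNReal.ofReal (max ‖v‖ ‖w‖) < injAt e p :=
    ((ENNReal.ofReal_lt_ofReal_iff_of_nonneg h0).2 (max_lt hv hw)).trans_le
      (h.trans (iInf_le _ p))
  obtain ⟨r, hr⟩ := lt_iSup_iff.1 h1
  obtain ⟨h2, h3⟩ := lt_iSup_iff.1 hr
  have h4 := (ENNReal.ofReal_lt_ofReal_iff_of_nonneg h0).1 h3
  exact h2.injOn (mem_ball_zero_iff.2 ((le_max_left _ _).trans_lt h4))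
    (mem_ball_zero_iff.2 ((le_max_right _ _).trans_lt h4)) hvw

/-- always `inj_p ≤ diam` -/
theorem injAt_le (F : Facts e) (hdim : 1 ≤ finrank ℝ E) (hd : ∀ x y : M, dist x y ≤ D) (p : M) :
    injAt e p ≤ ENNReal.ofReal D := by
  refine iSup₂_le fun r hr => ENNReal.ofReal_le_ofReal (not_lt.1 fun h => ?_)
  have hD : 0 ≤ D := dist_nonneg.trans (hd p p)
  have hE : Nontrivial E := Module.nontrivial_of_finrank_pos (R := ℝ) hdim
  have : Nontrivial (TangentSpace 𝓘(ℝ, E) p) := hE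
  obtain ⟨v, hv⟩ := exists_norm_eq (TangentSpace 𝓘(ℝ, E) p) (c := (D + r) / 2) (by linarith)
  obtain ⟨w, hw, hw'⟩ := F.hopfRinow p (e p v)
  have h1 := hd p (e p v)
  have h2 := hr.injOn (mem_ball_zero_iff.2 (by linarith : ‖w‖ < r))
    (mem_ball_zero_iff.2 (by linarith : ‖v‖ < r)) hw
  rw [h2] at hw'
  linarith

theorem diffeoOnBall_of (F : Facts e) (hB : InjGE e D) (p : M) : DiffeoOnBall e p D := by
  refine ⟨⟨⟨e p, logMap e p, Metric.ball 0 D, {z | dist p z < D}, fun v hv => ?_, fun z hz => ?_,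
    fun v hv => WE.logMap_exp F hB (mem_ball_zero_iff.1 hv),
    fun z hz => (WE.exp_logMap F hB hz).1⟩, Metric.isOpen_ball,
    isOpen_lt (continuous_const.dist continuous_id) continuous_const,
    (contMDiff_exp_fiber F.isExp p).contMDiffOn,
    fun z hz => (WE.contMDiffAt_logMap_of_dist F hB hz).contMDiffWithinAt⟩, rfl, fun _ _ => rfl⟩
  · have h1 := mem_ball_zero_iff.1 hv
    exact (hB p v h1.le).trans_lt h1
  · exact mem_ball_zero_iff.2 ((WE.exp_logMap F hB hz).2.trans_lt hz)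

theorem le_inj (F : Facts e) (hB : InjGE e D) : ENNReal.ofReal D ≤ inj e :=
  le_iInf fun p => le_iSup₂_of_le D (diffeoOnBall_of F hB p) le_rfl

end

end Vale.Agent.P231W52
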