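import Vale.Agent.P231W52.Defs

/-! P231W: the Fubini-Study metric through local lifts to the unit sphere. -/

set_option maxSynthPendingDepth 3

open Bundle Manifold Set
open scoped ContDiff Manifold

namespace Vale.Agent.P231W52

noncomputable section

/-- the Fubini-Study length: for a vector `w` tangent to the unit sphere of `Kᵐ` at `z`, the
squared length `|w|² - |⟨z, w⟩|²` of its component orthogonal to the line `z K` -/
def fs {K : Type*} [NormedRing K] [Star K] {m : ℕ} (z w : Fin m → K) : ℝ :=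
  ∑ i, ‖w i‖ ^ 2 - ‖∑ i, star (z i) * w i‖ ^ 2

/-- Near every point `Φ` lifts to a smooth map `z` to the unit sphere of `Kᵐ`, `Φ = z z*`, and the
Fubini-Study length of `dz v` is `c g(v, v)`. -/
def FSLift (E : Type*) [NormedAddCommGroup E] [NormedSpace ℝ E] {M : Type*} [MetricSpace M]
    [ChartedSpace E M] [RiemannianBundle (fun x : M => TangentSpace 𝓘(ℝ, E) x)]
    {K : Type*} [NormedRing K] [Star K] [NormedSpace ℝ K] {m : ℕ} (c : ℝ)
    (Φ : M → Fin m → Fin m → K) : Prop :=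
  ∀ p : M, ∃ (U : Set M) (z : M → Fin m → K), IsOpen U ∧ p ∈ U ∧
    ContMDiffOn 𝓘(ℝ, E) 𝓘(ℝ, Fin m → K) ∞ z U ∧ ∀ x ∈ U, ∑ i, ‖z x i‖ ^ 2 = 1 ∧
      (∀ i j, Φ x i j = z x i * star (z x j)) ∧ ∀ v : TangentSpace 𝓘(ℝ, E) x,
        fs (z x) (mfderiv 𝓘(ℝ, E) 𝓘(ℝ, Fin m → K) z x v) = c * inner ℝ v v

/-- `M` is isometric, up to scale, to `KPⁿ`; `D` is the diameter of `M`: there is a Riemannian
isometry `Φ` of `(M, π² / (2 D²) g)` onto the projectors, `π² / (4 D²) g` is the pull back of the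
Fubini-Study metric, and `d(x, y) = (2 D / π) arccos √(Re tr (Φ x (Φ y)*))`. -/
def IsoProj (E : Type*) [NormedAddCommGroup E] [NormedSpace ℝ E] (M : Type*) [MetricSpace M]
    [ChartedSpace E M] [RiemannianBundle (fun x : M => TangentSpace 𝓘(ℝ, E) x)]
    (K : Type*) [NormedRing K] [Star K] [InnerProductSpace ℝ K] (n : ℕ) (D : ℝ) : Prop :=
  ∃ Φ : M → Fin (n + 1) → Fin (n + 1) → K,
    IsoOnto E ipM (Proj K n) (Real.pi ^ 2 / (2 * D ^ 2)) Φ ∧
      FSLift E (Real.pi ^ 2 / (4 * D ^ 2)) Φ ∧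
      ∀ x y, dist x y = 2 * D / Real.pi * Real.arccos √(ipM (Φ x) (Φ y))

end

end Vale.Agent.P231W52
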