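import Vale.Agent.P231W52.Models
import Vale.Agent.P231W52.DefsL

/-! P231W: smooth local lifts to the unit sphere and the Fubini-Study metric. -/

set_option maxSynthPendingDepth 3
set_option linter.unusedSectionVars false

open Bundle Manifold Set Filter Module
open scoped ContDiff Manifold Topology

namespace Vale.Agent.P231W52

noncomputable section

variable {E : Type*} [NormedAddCommGroup E] [NormedSpace ℝ E]
  {M : Type*} [MetricSpace M] [ChartedSpace E M] [IsManifold 𝓘(ℝ, E) ∞ M]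
  [RiemannianBundle (fun x : M => TangentSpace 𝓘(ℝ, E) x)]
  {K : Type*} [NormedDivisionRing K] [StarRing K] [NormedStarGroup K]
  [InnerProductSpace ℝ K] [IsScalarTower ℝ K K] [SMulCommClass ℝ K K] [StarModule ℝ K] {m : ℕ}

theorem hasF_mul {W : Type*} [NormedAddCommGroup W] [NormedSpace ℝ W] (f g : W →L[ℝ] K) (y : W) :
    ∃ L : W →L[ℝ] K, HasFDerivAt (fun y => f y * g y) L y ∧ ∀ w, L w = f w * g y + f y * g w :=
  ⟨_, (ContinuousLinearMap.mul ℝ K).hasFDerivAt_of_bilinear f.hasFDerivAt g.hasFDerivAt,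
    fun w => by simp [add_comm]⟩

/-- the `i`-th coordinate -/
def co (i : Fin m) : (Fin m → K) →L[ℝ] K := ContinuousLinearMap.proj i

/-- the conjugate of the `i`-th coordinate -/
def cs (i : Fin m) : (Fin m → K) →L[ℝ] K :=
  (starL' ℝ : K ≃L[ℝ] K).toContinuousLinearMap.comp (ContinuousLinearMap.proj i)

theorem uniq {W V : Type*} [NormedAddCommGroup W] [NormedSpace ℝ W] [NormedAddCommGroup V]
    [NormedSpace ℝ V] {z : M → W} {x : M} {z' : E →L[ℝ] W}
    (h1 : HasMFDerivAt 𝓘(ℝ, E) 𝓘(ℝ, W) z x z') {q : W → V} {L : W →L[ℝ] V}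
    (h2 : HasFDerivAt q L (z x)) {ψ : M → V} {ψ' : E →L[ℝ] V}
    (h3 : HasMFDerivAt 𝓘(ℝ, E) 𝓘(ℝ, V) ψ x ψ') (h4 : ∀ᶠ y in 𝓝 x, ψ y = q (z y)) (v : E) :
    ψ' v = L (z' v) := by
  have h5 := hasMFDerivAt_unique h3 ((h2.hasMFDerivAt.comp x h1).congr_of_eventuallyEq h4)
  exact congrArg (fun A : E →L[ℝ] V => A v) h5

theorem ipM_tangent (re : K →+ ℝ) (h1 : ∀ a b : K, inner ℝ a b = re (a * star b))
    (h2 : ∀ a b : K, re (a * b) = re (b * a)) {z w : Fin m → K} (hz : ∑ i, ‖z i‖ ^ 2 = 1)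
    (hw : ∑ i, (star (w i) * z i + star (z i) * w i) = 0) :
    ipM (fun i j => w i * star (z j) + z i * star (w j))
      (fun i j => w i * star (z j) + z i * star (w j)) = 2 * fs z w := by
  have h3 : star (∑ i, star (z i) * w i) = -∑ i, star (z i) * w i := by
    rw [eq_neg_iff_add_eq_zero, star_sum, ← Finset.sum_add_distrib, ← hw]
    simp only [star_mul, star_star]
  have h4 : ∑ i, ∑ j, inner ℝ (w i * star (z j)) (z i * star (w j)) =
      -‖∑ i, star (z i) * w i‖ ^ 2 := by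
    rw [← real_inner_self_eq_norm_sq, h1, h3, mul_neg, map_neg, neg_neg, Finset.sum_mul_sum,
      map_sum]
    refine Finset.sum_congr rfl fun i _ => ?_
    rw [map_sum]
    refine Finset.sum_congr rfl fun j _ => ?_
    rw [h1, star_mul, star_star, ← mul_assoc, h2]
    simp only [mul_assoc]
  unfold ipM fs
  simp only [real_inner_add_add_self, Finset.sum_add_distrib, ← Finset.mul_sum, h4]
  simp only [real_inner_self_eq_norm_sq, norm_mul, norm_star, mul_pow, ← Finset.mul_sum, hz,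
    mul_one, ← Finset.sum_mul, one_mul]
  ring

theorem fsLift (re : K →+ ℝ) (h1 : ∀ a b : K, inner ℝ a b = re (a * star b))
    (h2 : ∀ a b : K, re (a * b) = re (b * a))
    (hsq : ∀ a : K, star a * a = (‖a‖ ^ 2 : ℝ) • (1 : K)) {n : ℕ} {c : ℝ}
    {Φ : M → Fin (n + 1) → Fin (n + 1) → K} (h : IsoOnto E ipM (Proj K n) (2 * c) Φ) :
    FSLift E c Φ := by
  intro p
  choose Z hZ hΦ using fun x : M => (h.range_eq ▸ mem_range_self x : Φ x ∈ Proj K n)
  obtain ⟨j, hj⟩ : ∃ j, Z p j ≠ 0 := by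
    by_contra! h0
    simpa [h0] using hZ p
  have hN : ∀ x, ∑ i, ‖Φ x i j‖ ^ 2 = ‖Z x j‖ ^ 2 := fun x => by
    simp only [hΦ, norm_mul, norm_star, mul_pow, ← Finset.sum_mul, hZ, one_mul]
  let U : Set M := {x | ∑ i, ‖Φ x i j‖ ^ 2 ≠ 0}
  let q : (Fin (n + 1) → Fin (n + 1) → K) → Fin (n + 1) → K :=
    fun X => (√(∑ i, ‖X i j‖ ^ 2))⁻¹ • fun i => X i j
  have hc := h.smooth.continuous
  have hU : IsOpen U := isOpen_ne_fun (by fun_prop) continuous_const
  have hq : ∀ x ∈ U, ContMDiffAt 𝓘(ℝ, E) 𝓘(ℝ, Fin (n + 1) → K) ∞ (fun x => q (Φ x)) x := by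
    intro x hx
    have h3 : ContDiff ℝ ∞ fun X : Fin (n + 1) → Fin (n + 1) → K => ∑ i, ‖X i j‖ ^ 2 :=
      ContDiff.sum fun i _ => ContDiff.norm_sq ℝ (by fun_prop)
    have h4 : ContDiffAt ℝ ∞ q (Φ x) :=
      ((h3.contDiffAt.sqrt hx).inv (Real.sqrt_ne_zero'.2 (lt_of_le_of_ne
        (Finset.sum_nonneg fun i _ => sq_nonneg _) (Ne.symm hx)))).smul (by fun_prop)
    exact h4.contMDiffAt.comp x (h.smooth x)
  have hz : ∀ x ∈ U, ∑ i, ‖q (Φ x) i‖ ^ 2 = 1 ∧
      ∀ i k, Φ x i k = q (Φ x) i * star (q (Φ x) k) := by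
    intro x hx
    have h0 : ‖Z x j‖ ≠ 0 := fun h0 => hx (by rw [hN, h0]; simp)
    have h3 : ∀ i, q (Φ x) i = ‖Z x j‖⁻¹ • (Z x i * star (Z x j)) := fun i => by
      show (√(∑ i, ‖Φ x i j‖ ^ 2))⁻¹ • Φ x i j = _
      rw [hN, Real.sqrt_sq (norm_nonneg _), hΦ]
    refine ⟨?_, fun i k => ?_⟩
    · simp only [h3, norm_smul, norm_mul, norm_star, norm_inv, norm_norm]
      rw [← hZ x]
      exact Finset.sum_congr rfl fun i _ => by field_simp
    · rw [h3, h3, hΦ, star_smul, star_trivial ‖Z x j‖⁻¹, smul_mul_assoc, mul_smul_comm,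
        smul_smul, star_mul, star_star, mul_assoc, ← mul_assoc (star (Z x j)), hsq, smul_mul_assoc, one_mul,
        mul_smul_comm, smul_smul, ← pow_two, ← mul_pow, inv_mul_cancel₀ h0, one_pow, one_smul]
  refine ⟨U, fun x => q (Φ x), hU, ?_, fun x hx => (hq x hx).contMDiffWithinAt, fun x hx =>
    ⟨(hz x hx).1, (hz x hx).2, fun v => ?_⟩⟩
  · show ∑ i, ‖Φ p i j‖ ^ 2 ≠ 0
    rw [hN]
    exact pow_ne_zero 2 (norm_ne_zero_iff.2 hj)
  have d1 := ((hq x hx).mdifferentiableAt (by simp)).hasMFDerivAt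
  have d2 := (h.smooth.mdifferentiableAt (x := x) (by simp)).hasMFDerivAt
  have hev : ∀ᶠ y in 𝓝 x, y ∈ U := hU.mem_nhds hx
  obtain ⟨w, hw⟩ : ∃ w : Fin (n + 1) → K,
    w = mfderiv 𝓘(ℝ, E) 𝓘(ℝ, Fin (n + 1) → K) (fun x => q (Φ x)) x v := ⟨_, rfl⟩
  obtain ⟨X, hX⟩ : ∃ X : Fin (n + 1) → Fin (n + 1) → K,
    X = mfderiv 𝓘(ℝ, E) 𝓘(ℝ, Fin (n + 1) → Fin (n + 1) → K) Φ x v := ⟨_, rfl⟩
  have e1 : X = fun i k => w i * star (q (Φ x) k) + q (Φ x) i * star (w k) := by
    funext i k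
    obtain ⟨L, hL, hL'⟩ := hasF_mul (co i) (cs k) (q (Φ x))
    let A : (Fin (n + 1) → Fin (n + 1) → K) →L[ℝ] K := (co k).comp (ContinuousLinearMap.proj i)
    have h3 := uniq d1 hL (A.hasMFDerivAt.comp x d2) (hev.mono fun y hy => (hz y hy).2 i k) v
    rw [hL'] at h3
    rw [hX, hw]
    exact h3
  have e2 : ∑ i, (star (w i) * q (Φ x) i + star (q (Φ x) i) * w i) = 0 := by
    choose L hL hL' using fun i : Fin (n + 1) => hasF_mul (cs i) (co i) (q (Φ x))
    have h3 := uniq d1 (HasFDerivAt.fun_sum (u := Finset.univ) fun i _ => hL i)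
      (hasMFDerivAt_const (1 : K) x) (hev.mono fun y hy => by
        show (1 : K) = ∑ i, star (q (Φ y) i) * q (Φ y) i
        simp only [hsq, ← Finset.sum_smul, (hz y hy).1, one_smul]) v
    rw [sum_apply] at h3
    simp only [hL'] at h3
    rw [hw]
    exact h3.symm
  have e3 : ipM X X = 2 * c * inner ℝ v v := by
    rw [hX]
    exact h.pullback x v v
  rw [e1, ipM_tangent re h1 h2 (hz x hx).1 e2] at e3
  have e4 : fs (q (Φ x)) w = c * inner ℝ v v := by linarith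
  rw [hw] at e4
  exact e4

theorem isoProj_of (re : K →+ ℝ) (h1 : ∀ a b : K, inner ℝ a b = re (a * star b))
    (h2 : ∀ a b : K, re (a * b) = re (b * a))
    (hsq : ∀ a : K, star a * a = (‖a‖ ^ 2 : ℝ) • (1 : K)) {n : ℕ} {D : ℝ}
    (h : ProjIso E M K n D) : IsoProj E M K n D := by
  obtain ⟨Φ, h3, h4⟩ := h
  refine ⟨Φ, h3, fsLift re h1 h2 hsq ?_, h4⟩
  rwa [show 2 * (Real.pi ^ 2 / (4 * D ^ 2)) = Real.pi ^ 2 / (2 * D ^ 2) by ring]

theorem isoProj_real {n : ℕ} {D : ℝ} (h : ProjIso E M ℝ n D) : IsoProj E M ℝ n D :=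
  isoProj_of (AddMonoidHom.id ℝ) (fun a b => by simp [mul_comm]) (fun a b => by simp [mul_comm])
    (fun a => by simp [pow_two]) h

theorem isoProj_complex {n : ℕ} {D : ℝ} (h : ProjIso E M ℂ n D) : IsoProj E M ℂ n D :=
  isoProj_of Complex.reLm.toAddMonoidHom (fun a b => by simp [Complex.inner, mul_comm])
    (fun a b => by rw [mul_comm]) (fun a => by
      rw [Complex.star_def, Complex.conj_mul', Complex.real_smul, mul_one]
      norm_cast) h

theorem isoProj_quat {n : ℕ} {D : ℝ} (h : ProjIso E M (Quaternion ℝ) n D) :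
    IsoProj E M (Quaternion ℝ) n D :=
  haveI : StarModule ℝ (Quaternion ℝ) := ⟨fun r a => by ext <;> simp⟩
  isoProj_of (QuaternionAlgebra.reₗ (-1 : ℝ) 0 (-1)).toAddMonoidHom (fun _ _ => rfl)
    (fun a b => by
      show (a * b).re = (b * a).re
      rw [Quaternion.re_mul, Quaternion.re_mul]
      ring) (fun a => by
      rw [Quaternion.star_mul_self, Quaternion.normSq_eq_norm_mul_self, ← pow_two,
        ← Quaternion.coe_mul_eq_smul, mul_one]) h

end

end Vale.Agent.P231W52
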