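import Vale.Agent.P231W52.St
import Vale.Agent.P231W52.Emb
import Vale.Agent.P231W52.Lift
import Vale.Agent.P231W52.Inj

/-! P231W: from the list of distance preserving models to the Riemannian statement. -/

set_option maxSynthPendingDepth 3
set_option linter.unusedSectionVars false

open Bundle Manifold Set Filter Module
open scoped ContDiff Manifold Topology ENNReal

namespace Vale.Agent.P231W52

open Vale.Agent.P234 Vale.Agent.P231 Vale.Agent.P231Z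

noncomputable section

variable {E : Type*} [NormedAddCommGroup E] [NormedSpace ℝ E] [FiniteDimensional ℝ E]
  {M : Type*} [MetricSpace M] [ChartedSpace E M] [IsManifold 𝓘(ℝ, E) ∞ M]
  [RiemannianBundle (fun x : M => TangentSpace 𝓘(ℝ, E) x)]
  [IsContMDiffRiemannianBundle 𝓘(ℝ, E) ∞ E (fun x : M => TangentSpace 𝓘(ℝ, E) x)]
  [CompactSpace M] {e : ∀ x : M, TangentSpace 𝓘(ℝ, E) x → M} {D : ℝ}

theorem IsoOnto.conv {W : Type*} [NormedAddCommGroup W] [NormedSpace ℝ W] [FiniteDimensional ℝ W]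
    {B : W → W → ℝ} {S : Set W} {c : ℝ} {Φ : M → W} (h : IsoOnto E B S c Φ) (hc : 0 < c) :
    P231Iso.IsoOnto E B S c Φ := by
  refine ⟨isSmoothEmbedding h.smooth h.injective fun p => ?_, h.range_eq, h.pullback⟩
  refine (injective_iff_map_eq_zero _).2 fun u hu => ?_
  have h1 := h.pullback p u u
  have h2 := h.pullback p 0 0
  rw [map_zero, inner_zero_left, mul_zero] at h2
  rw [hu] at h1
  exact inner_self_eq_zero.1 ((mul_eq_zero.1 (h1.symm.trans h2)).resolve_left hc.ne')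

theorem IsoProj.conv {K : Type*} [NormedRing K] [Star K] [InnerProductSpace ℝ K]
    [FiniteDimensional ℝ K] {n : ℕ} (hD : 0 < D) (h : IsoProj E M K n D) :
    P231Iso.IsoProj E M K n D := by
  obtain ⟨Φ, h1, h2, h3⟩ := h
  exact ⟨Φ, h1.conv (by positivity), h2, h3⟩

theorem hd_diam (x y : M) : dist x y ≤ Metric.diam (univ : Set M) :=
  Metric.dist_le_diam_of_mem isCompact_univ.isBounded (mem_univ x) (mem_univ y)

theorem inj_le [Nonempty M] (F : Facts e) (hdim : 1 ≤ finrank ℝ E) :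
    P231Iso.inj e ≤ ENNReal.ofReal (Metric.diam (univ : Set M)) := by
  obtain ⟨p⟩ : Nonempty M := inferInstance
  exact (iInf_le _ p).trans (injAt_le F hdim hd_diam p)

theorem injGeDiam_of (h : P231Iso.inj e = ENNReal.ofReal (Metric.diam (univ : Set M))) :
    Blaschke.InjGeDiam e := fun p => injOn_of_le h.ge p

theorem conv (G : Geo e D)
    (h : (∃ Z : M → EuclideanSpace ℝ (Fin (finrank ℝ E + 1)), (∀ x, ‖Z x‖ = 1) ∧
      (∀ x y, dist x y = D / Real.pi * Real.arccos (inner ℝ (Z x) (Z y))) ∧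
      ∀ z, ‖z‖ = 1 → ∃ x, Z x = z) ∨
    (∃ Z : M → EuclideanSpace ℝ (Fin (finrank ℝ E + 1)), (∀ x, ‖Z x‖ = 1) ∧
      (∀ x y, dist x y = 2 * D / Real.pi * Real.arccos |(inner ℝ (Z x) (Z y) : ℝ)|) ∧
      ∀ z, ‖z‖ = 1 → ∃ x, |(inner ℝ (Z x) z : ℝ)| = 1) ∨
    (∃ n : ℕ, 2 * n = finrank ℝ E ∧ ∃ Z : M → Fin (n + 1) → ℂ,
      (∀ x, ∑ i, ‖Z x i‖ ^ 2 = 1) ∧
      (∀ x y, dist x y = 2 * D / Real.pi * Real.arccos ‖∑ i, starRingEnd ℂ (Z x i) * Z y i‖) ∧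
      ∀ z : Fin (n + 1) → ℂ, ∑ i, ‖z i‖ ^ 2 = 1 →
        ∃ x, ‖∑ i, starRingEnd ℂ (Z x i) * z i‖ = 1) ∨
    (∃ n : ℕ, 4 * n = finrank ℝ E ∧ ∃ Z : M → Fin (n + 1) → Quaternion ℝ,
      (∀ x, ∑ i, ‖Z x i‖ ^ 2 = 1) ∧
      (∀ x y, dist x y = 2 * D / Real.pi * Real.arccos ‖∑ i, star (Z x i) * Z y i‖) ∧
      ∀ z : Fin (n + 1) → Quaternion ℝ, ∑ i, ‖z i‖ ^ 2 = 1 →
        ∃ x, ‖∑ i, star (Z x i) * z i‖ = 1) ∨
    (finrank ℝ E = 16 ∧ ∃ Z : M → Alb, (∀ x, Ver (Z x)) ∧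
      (∀ x y, dist x y = 2 * D / Real.pi * Real.arccos (√(ipA (Z x) (Z y)))) ∧
      ∀ X, Ver X → ∃ x, Z x = X)) :
    (∃ Φ : M → EuclideanSpace ℝ (Fin (finrank ℝ E + 1)),
      P231Iso.IsoOnto E (inner ℝ) (Metric.sphere 0 1) (Real.pi ^ 2 / D ^ 2) Φ ∧
        ∀ x y, dist x y = D / Real.pi * Real.arccos (inner ℝ (Φ x) (Φ y))) ∨
    P231Iso.IsoProj E M ℝ (finrank ℝ E) D ∨
    (∃ n : ℕ, 2 * n = finrank ℝ E ∧ P231Iso.IsoProj E M ℂ n D) ∨
    (∃ n : ℕ, 4 * n = finrank ℝ E ∧ P231Iso.IsoProj E M (Quaternion ℝ) n D) ∨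
    (finrank ℝ E = 16 ∧ ∃ Φ : M → Alb,
      P231Iso.IsoOnto E ipA {X | Ver X} (Real.pi ^ 2 / (2 * D ^ 2)) Φ ∧
        ∀ x y, dist x y = 2 * D / Real.pi * Real.arccos √(ipA (Φ x) (Φ y))) := by
  have hD := G.pos
  rcases h with ⟨Z, h1, h2, h3⟩ | ⟨Z, h1, h2, h3⟩ | ⟨n, hn, Z, h1, h2, h3⟩ |
    ⟨n, hn, Z, h1, h2, h3⟩ | ⟨hn, Z, h1, h2, h3⟩
  · exact .inl ⟨Z, (sphere_row G h1 h2 h3).conv (by positivity), h2⟩
  · exact .inr (.inl ((isoProj_real (real_row G h1 h2 h3)).conv hD))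
  · exact .inr (.inr (.inl ⟨n, hn, (isoProj_complex (complex_row G h1 h2 h3)).conv hD⟩))
  · exact .inr (.inr (.inr (.inl ⟨n, hn, (isoProj_quat (quat_row G h1 h2 h3)).conv hD⟩)))
  · exact .inr (.inr (.inr (.inr ⟨hn, Z, (cayley_row G h1 h2 h3).conv (by positivity), h2⟩)))

end

end Vale.Agent.P231W52
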