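import Vale.Agent.P231.WE.PolarLog
import Vale.Agent.P231.Bd3.B5

/-! P231W: maps to a Euclidean space whose inner products are `a + b cos (w d)` are smooth, and
multiply the Riemannian metric by the constant `b w²`. -/

set_option maxSynthPendingDepth 3
set_option linter.unusedSectionVars false

open Bundle Manifold Set Filter Module
open scoped ContDiff Manifold Topology

namespace Vale.Agent.P231W52

open Vale.Agent.P234 Vale.Agent.P231

noncomputable section

variable {E : Type*} [NormedAddCommGroup E] [NormedSpace ℝ E] [FiniteDimensional ℝ E]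
  {M : Type*} [MetricSpace M] [ChartedSpace E M] [IsManifold 𝓘(ℝ, E) ∞ M]
  [RiemannianBundle (fun x : M => TangentSpace 𝓘(ℝ, E) x)]
  [IsContMDiffRiemannianBundle 𝓘(ℝ, E) ∞ E (fun x : M => TangentSpace 𝓘(ℝ, E) x)]
  {e : ∀ x : M, TangentSpace 𝓘(ℝ, E) x → M}
  {V : Type*} [NormedAddCommGroup V] [InnerProductSpace ℝ V] [FiniteDimensional ℝ V]
  {P : M → V} {a b w D : ℝ}

theorem sq_sub (hP : ∀ x y, inner ℝ (P x) (P y) = a + b * Real.cos (w * dist x y)) (x y : M) :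
    inner ℝ (P x - P y) (P x - P y) = 4 * b * Real.sin (w * dist x y / 2) ^ 2 := by
  have h : Real.cos (w * dist x y) = 1 - 2 * Real.sin (w * dist x y / 2) ^ 2 := by
    have h1 := Real.cos_two_mul (w * dist x y / 2)
    have h2 := Real.sin_sq_add_cos_sq (w * dist x y / 2)
    rw [show 2 * (w * dist x y / 2) = w * dist x y by ring] at h1
    linarith
  rw [inner_sub_left, inner_sub_right, inner_sub_right, hP, hP, hP, hP, dist_self, dist_self,
    dist_comm y x, mul_zero, Real.cos_zero, h]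
  ring

theorem continuous_P (hP : ∀ x y, inner ℝ (P x) (P y) = a + b * Real.cos (w * dist x y)) :
    Continuous P := by
  rw [continuous_iff_continuousAt]
  intro y
  rw [ContinuousAt, tendsto_iff_norm_sub_tendsto_zero]
  have h1 : Continuous fun x => √(4 * b * Real.sin (w * dist x y / 2) ^ 2) := by fun_prop
  have h2 := h1.tendsto y
  simp only [dist_self, mul_zero, zero_div, Real.sin_zero, ne_eq, OfNat.ofNat_ne_zero,
    not_false_eq_true, zero_pow, Real.sqrt_zero] at h2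
  refine h2.congr fun x => ?_
  rw [← sq_sub hP, real_inner_self_eq_norm_sq, Real.sqrt_sq (norm_nonneg _)]

theorem mem_closure_ray (F : Facts e) (hB : InjGE e D) (x : M) {u : TangentSpace 𝓘(ℝ, E) x}
    (hu : u ≠ 0) (huD : ‖u‖ ≤ D) {s : ℝ} (hs : s ∈ Icc (0 : ℝ) 1) :
    e x (s • u) ∈ closure {y | dist y x < D ∧ x ≠ y} := by
  have h1 : Continuous fun t : ℝ => e x (t • u) :=
    (contMDiff_exp_fiber F.isExp x).continuous.comp (continuous_id.smul continuous_const)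
  rw [← closure_Ioo zero_ne_one] at hs
  refine map_mem_closure (f := fun t : ℝ => e x (t • u)) h1 hs fun t ht => ?_
  have hn : 0 < ‖u‖ := norm_pos_iff.2 hu
  have h3 : ‖t • u‖ = t * ‖u‖ := by rw [norm_smul, Real.norm_eq_abs, abs_of_pos ht.1]
  have h4 : t * ‖u‖ < ‖u‖ := by nlinarith only [hn, ht.2]
  have h2 : dist x (e x (t • u)) = t * ‖u‖ := by
    rw [hB x _ (by rw [h3]; linarith only [h4, huD]), h3]
  refine ⟨by rw [dist_comm, h2]; linarith only [h4, huD], fun h => ?_⟩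
  have h5 : x = e x (t • u) := h
  rw [← h5, dist_self] at h2
  exact (mul_pos ht.1 hn).ne h2

theorem dense_ball (F : Facts e) (hdim : 1 ≤ finrank ℝ E) (hD : 0 < D) (hB : InjGE e D)
    (hd : ∀ x y : M, dist x y ≤ D) (x z : M) : z ∈ closure {y | dist y x < D ∧ x ≠ y} := by
  obtain ⟨v, hv, hz⟩ := F.hopfRinow x z
  by_cases h0 : v = 0
  · have : Nontrivial E := Module.nontrivial_of_finrank_pos (R := ℝ) hdim
    obtain ⟨u0, hu0⟩ : ∃ u0 : TangentSpace 𝓘(ℝ, E) x, u0 ≠ 0 := exists_ne (0 : E)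
    have hn : 0 < ‖u0‖ := norm_pos_iff.2 hu0
    have h1 := mem_closure_ray F hB x (u := (D / ‖u0‖) • u0)
      (smul_ne_zero (div_pos hD hn).ne' hu0) (by
        rw [norm_smul, Real.norm_eq_abs, abs_of_pos (div_pos hD hn), div_mul_cancel₀ _ hn.ne'])
      (s := 0) ⟨le_rfl, zero_le_one⟩
    rwa [zero_smul, ← h0, hv] at h1
  · have h1 := mem_closure_ray F hB x h0 (hz ▸ hd x z) (s := 1) ⟨zero_le_one, le_rfl⟩
    rwa [one_smul, hv] at h1

theorem smooth (F : Facts e) (hdim : 1 ≤ finrank ℝ E) (hD : 0 < D) (hB : InjGE e D)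
    (hd : ∀ x y : M, dist x y ≤ D)
    (hP : ∀ x y, inner ℝ (P x) (P y) = a + b * Real.cos (w * dist x y)) :
    ContMDiff 𝓘(ℝ, E) 𝓘(ℝ, V) ∞ P := by
  intro x
  let S : Submodule ℝ V := Submodule.span ℝ (P '' {y | dist y x < D ∧ x ≠ y})
  have hS : ∀ z, P z ∈ S := fun z => by
    have h1 := map_mem_closure (continuous_P hP) (dense_ball F hdim hD hB hd x z)
      (t := (S : Set V)) fun y hy => Submodule.subset_span (mem_image_of_mem _ hy)
    rwa [S.closed_of_finiteDimensional.closure_eq] at h1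
  have h1 : ∀ s ∈ S, ContMDiffAt 𝓘(ℝ, E) 𝓘(ℝ, ℝ) ∞ (fun z => inner ℝ s (P z)) x := by
    intro s hs
    induction hs using Submodule.span_induction with
    | mem s hs =>
      obtain ⟨y, hy, rfl⟩ := hs
      simp only [hP]
      have h2 : ContDiff ℝ ∞ fun t : ℝ => a + b * Real.cos (w * t) := by fun_prop
      exact h2.contMDiff.contMDiffAt.comp x (WE.contMDiffAt_dist F hB hy.1 hy.2)
    | zero => simp only [inner_zero_left]; exact contMDiffAt_const
    | add s t _ _ hs ht => simp only [inner_add_left]; exact hs.add ht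
    | smul r s _ hs =>
      simp only [real_inner_smul_left]
      exact (contMDiffAt_const (c := r)).mul hs
  have h2 : ∀ v : V, ContMDiffAt 𝓘(ℝ, E) 𝓘(ℝ, ℝ) ∞ (fun z => inner ℝ v (P z)) x := by
    intro v
    obtain ⟨s, hs, t, ht, rfl⟩ := S.exists_add_mem_mem_orthogonal v
    have : (fun z => inner ℝ (s + t) (P z)) = fun z => inner ℝ s (P z) := by
      funext z
      rw [inner_add_left, Submodule.inner_left_of_mem_orthogonal (hS z) ht, add_zero]
    rw [this]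
    exact h1 s hs
  have h3 : P = fun z => ∑ i, inner ℝ (stdOrthonormalBasis ℝ V i) (P z) •
      stdOrthonormalBasis ℝ V i := by
    funext z
    exact ((stdOrthonormalBasis ℝ V).sum_repr' (P z)).symm
  rw [h3]
  exact contMDiffAt_finsetSum fun i _ => (h2 _).smul contMDiffAt_const

theorem hasDerivAt_ray (F : Facts e) (hs : ContMDiff 𝓘(ℝ, E) 𝓘(ℝ, V) ∞ P) (x : M)
    (u : TangentSpace 𝓘(ℝ, E) x) :
    HasDerivAt (F := V) (fun t : ℝ => P (e x (t • u))) (mfderiv 𝓘(ℝ, E) 𝓘(ℝ, V) P x u) 0 := by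
  have h0 : ContMDiff 𝓘(ℝ, ℝ) 𝓘(ℝ, E) ∞ fun t : ℝ => e x (t • u) :=
    (contMDiff_exp_fiber F.isExp x).comp (contDiff_id.smul contDiff_const).contMDiff
  have h1 := (h0.mdifferentiableAt (x := 0) (by simp)).hasMFDerivAt
  have h2 : ∀ y, y = x → HasMFDerivAt 𝓘(ℝ, E) 𝓘(ℝ, V) P y
      (mfderiv 𝓘(ℝ, E) 𝓘(ℝ, V) P x : E →L[ℝ] V) := by
    rintro y rfl
    exact (hs.mdifferentiableAt (by simp)).hasMFDerivAt
  have h3 := (h2 (e x ((0 : ℝ) • u)) (by rw [zero_smul, F.isExp.map_zero])).comp (0 : ℝ) h1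
  have h6 : HasFDerivAt (𝕜 := ℝ) (E := ℝ) (F := V) (fun t : ℝ => P (e x (t • u))) _ 0 :=
    hasMFDerivAt_iff_hasFDerivAt.1 h3
  have h4 := h6.hasDerivAt
  have h5 := F.isExp.velocity x u
  refine h4.congr_deriv ?_
  exact congrArg (mfderiv 𝓘(ℝ, E) 𝓘(ℝ, V) P x : E →L[ℝ] V) h5

theorem inner_self (F : Facts e) (hD : 0 < D) (hB : InjGE e D)
    (hP : ∀ x y, inner ℝ (P x) (P y) = a + b * Real.cos (w * dist x y))
    (hs : ContMDiff 𝓘(ℝ, E) 𝓘(ℝ, V) ∞ P) (x : M) (u : TangentSpace 𝓘(ℝ, E) x) :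
    @inner ℝ V _ (mfderiv 𝓘(ℝ, E) 𝓘(ℝ, V) P x u) (mfderiv 𝓘(ℝ, E) 𝓘(ℝ, V) P x u) =
      b * w ^ 2 * inner ℝ u u := by
  have h1 := (hasDerivAt_ray F hs x u).tendsto_slope_zero
  have h2 : HasDerivAt (fun t : ℝ => Real.sin (w * ‖u‖ / 2 * t)) (w * ‖u‖ / 2) 0 := by
    have := ((hasDerivAt_id (0 : ℝ)).const_mul (w * ‖u‖ / 2)).sin
    simpa using this
  have h3 := (h2.tendsto_slope_zero.pow 2).const_mul (4 * b)
  have h4 : ∀ᶠ t : ℝ in 𝓝[≠] 0, |t| * ‖u‖ < D := by
    have h5 : Continuous fun t : ℝ => |t| * ‖u‖ := by fun_prop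
    refine nhdsWithin_le_nhds ((h5.tendsto 0).eventually (gt_mem_nhds ?_))
    simpa using hD
  have h6 := tendsto_nhds_unique ((h1.inner (𝕜 := ℝ) h1).congr' (by
    filter_upwards [h4] with t ht
    have h7 : ‖t • u‖ = |t| * ‖u‖ := by rw [norm_smul, Real.norm_eq_abs]
    have h8 : dist (e x (t • u)) x = |t| * ‖u‖ := by
      rw [dist_comm, hB x _ (by rw [h7]; exact ht.le), h7]
    have h9 : Real.sin (w * (|t| * ‖u‖) / 2) ^ 2 = Real.sin (w * ‖u‖ / 2 * t) ^ 2 := by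
      rcases abs_choice t with h | h
      · rw [h]; congr 2; ring
      · rw [h, show w * (-t * ‖u‖) / 2 = -(w * ‖u‖ / 2 * t) by ring, Real.sin_neg, neg_sq]
    rw [zero_add, zero_smul, F.isExp.map_zero, real_inner_smul_left, real_inner_smul_right,
      sq_sub hP, h8, h9, mul_zero, Real.sin_zero, sub_zero, smul_eq_mul]
    ring)) h3
  refine h6.trans ?_
  rw [real_inner_self_eq_norm_sq]
  ring

/-- the core: smoothness and the pull back of the Euclidean metric -/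
theorem core (F : Facts e) (hdim : 1 ≤ finrank ℝ E) (hD : 0 < D) (hB : InjGE e D)
    (hd : ∀ x y : M, dist x y ≤ D)
    (hP : ∀ x y, inner ℝ (P x) (P y) = a + b * Real.cos (w * dist x y)) :
    ContMDiff 𝓘(ℝ, E) 𝓘(ℝ, V) ∞ P ∧ ∀ (x : M) (u v : TangentSpace 𝓘(ℝ, E) x),
      @inner ℝ V _ (mfderiv 𝓘(ℝ, E) 𝓘(ℝ, V) P x u) (mfderiv 𝓘(ℝ, E) 𝓘(ℝ, V) P x v) =
        b * w ^ 2 * inner ℝ u v := by
  have hs := smooth F hdim hD hB hd hP
  refine ⟨hs, fun x u v => ?_⟩
  have h1 := inner_self F hD hB hP hs x (u + v)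
  have h2 := inner_self F hD hB hP hs x u
  have h3 := inner_self F hD hB hP hs x v
  have h4 := real_inner_add_add_self (F := V) (mfderiv 𝓘(ℝ, E) 𝓘(ℝ, V) P x u)
    (mfderiv 𝓘(ℝ, E) 𝓘(ℝ, V) P x v)
  have h5 := congrArg (fun z : V => inner ℝ z z) (map_add (mfderiv 𝓘(ℝ, E) 𝓘(ℝ, V) P x) u v)
  have h6 := (h1.symm.trans h5).trans h4
  rw [real_inner_add_add_self, h2, h3] at h6
  linarith

end

end Vale.Agent.P231W52
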