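import Vale.Agent.P231.Final.Defs
import Vale.Agent.P231Z.Oct.Defs

/-! P231W: the injectivity radius, Riemannian isometries up to scale onto subsets of Euclidean
spaces, and the projective spaces as sets of rank one projectors. -/

set_option maxSynthPendingDepth 3

open Bundle Manifold Set
open scoped ContDiff Manifold ENNReal

namespace Vale.Agent.P231W52

noncomputable section

variable {E : Type*} [NormedAddCommGroup E] [NormedSpace ℝ E]
  {M : Type*} [MetricSpace M] [ChartedSpace E M]
  [RiemannianBundle (fun x : M => TangentSpace 𝓘(ℝ, E) x)]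

/-- `e p` restricted to the open ball of radius `r` of `T_p M` is a diffeomorphism onto its
image: it is a smooth bijection from the ball onto an open set, with smooth inverse. -/
def DiffeoOnBall (e : ∀ x : M, TangentSpace 𝓘(ℝ, E) x → M) (p : M) (r : ℝ) : Prop :=
  ∃ φ : PartialDiffeomorph 𝓘(ℝ, TangentSpace 𝓘(ℝ, E) p) 𝓘(ℝ, E) (TangentSpace 𝓘(ℝ, E) p) M ∞,
    φ.source = Metric.ball 0 r ∧ ∀ v ∈ φ.source, φ v = e p v

/-- `inj_p`, the supremum of the radii `r` such that `e p` restricted to the open ball of radius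
`r` is a diffeomorphism onto its image -/
def injAt (e : ∀ x : M, TangentSpace 𝓘(ℝ, E) x → M) (p : M) : ℝ≥0∞ :=
  ⨆ (r : ℝ) (_ : DiffeoOnBall e p r), ENNReal.ofReal r

/-- the injectivity radius `inj = inf_p inj_p` -/
def inj (e : ∀ x : M, TangentSpace 𝓘(ℝ, E) x → M) : ℝ≥0∞ := ⨅ p : M, injAt e p

variable (E) in
/-- `Φ` is a smooth injective map from `M` onto the subset `S` of the vector space `W`, and its
differential pulls the inner product `B` of `W` back to `c` times the Riemannian metric: `Φ` is a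
Riemannian isometry from `(M, c g)` onto `S` with the metric induced by `B`. -/
structure IsoOnto {W : Type*} [NormedAddCommGroup W] [NormedSpace ℝ W] (B : W → W → ℝ)
    (S : Set W) (c : ℝ) (Φ : M → W) : Prop where
  smooth : ContMDiff 𝓘(ℝ, E) 𝓘(ℝ, W) ∞ Φ
  injective : Function.Injective Φ
  range_eq : range Φ = S
  pullback : ∀ (x : M) (u v : TangentSpace 𝓘(ℝ, E) x),
    B (mfderiv 𝓘(ℝ, E) 𝓘(ℝ, W) Φ x u) (mfderiv 𝓘(ℝ, E) 𝓘(ℝ, W) Φ x v) = c * inner ℝ u v

/-- the projective space `KPⁿ` (`K = ℝ, ℂ, ℍ`): the matrices `z z*` of the orthogonal projections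
onto the lines `z K` of `Kⁿ⁺¹`, `z` a unit vector -/
def Proj (K : Type*) [NormedRing K] [Star K] (n : ℕ) : Set (Fin (n + 1) → Fin (n + 1) → K) :=
  {X | ∃ z : Fin (n + 1) → K, ∑ i, ‖z i‖ ^ 2 = 1 ∧ ∀ i j, X i j = z i * star (z j)}

/-- the Euclidean inner product `Re tr (X Y*)` of matrices -/
def ipM {K : Type*} [NormedAddCommGroup K] [InnerProductSpace ℝ K] {m : ℕ}
    (X Y : Fin m → Fin m → K) : ℝ := ∑ i, ∑ j, inner ℝ (X i j) (Y i j)

end

end Vale.Agent.P231W52
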