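import Vale.Agent.P231.Bd3.B6
import Mathlib.Analysis.ODE.ExistUnique

/-! P231W: the local exponential map in a chart, with its differential equation. -/

set_option linter.unusedSectionVars false

open Set Filter Topology Metric
open scoped ContDiff

namespace Vale.Agent.P231W52

open Vale.Agent.P234

noncomputable section

variable {E : Type*} [NormedAddCommGroup E] [NormedSpace ℝ E] [FiniteDimensional ℝ E]

theorem exists_flat' {U : Set E} (hU : IsOpen U) {G : E → E →L[ℝ] E →L[ℝ] ℝ}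
    (hG : ContDiffOn ℝ ∞ G U) (hsym : ∀ q ∈ U, ∀ a b : E, G q a b = G q b a)
    (hpos : ∀ q ∈ U, ∀ a : E, a ≠ 0 → 0 < G q a a) {x₀ : E} (hx₀ : x₀ ∈ U) :
    ∃ X L : E × E → E, ∃ S : E → E →L[ℝ] E →L[ℝ] E,
      (∀ᶠ q in 𝓝 x₀, ∀ a b : E,
        G q (S q a a) b = (1 / 2) * fderiv ℝ G q b a a - fderiv ℝ G q a a b) ∧
      (∀ᶠ z in 𝓝 ((x₀, 0) : E × E), ∀ t ∈ Ioo (0 : ℝ) 1,
        deriv (deriv (fun s : ℝ => X (z.1, s • z.2))) t =
          S (X (z.1, t • z.2)) (deriv (fun s : ℝ => X (z.1, s • z.2)) t)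
            (deriv (fun s : ℝ => X (z.1, s • z.2)) t)) ∧ ContDiff ℝ ∞ S ∧
      (∀ᶠ z in 𝓝 ((x₀, 0) : E × E), ContDiffAt ℝ ∞ X z) ∧
      (∀ᶠ z in 𝓝 ((x₀, 0) : E × E), X z ∈ U) ∧
      (∀ᶠ x in 𝓝 x₀, X (x, 0) = x) ∧
      (∀ᶠ x in 𝓝 x₀, HasFDerivAt (fun v : E => X (x, v)) (ContinuousLinearMap.id ℝ E) 0) ∧
      (∀ᶠ z in 𝓝 ((x₀, 0) : E × E), ∀ t ∈ Icc (0 : ℝ) 1,
        G (X (z.1, t • z.2)) (deriv (fun s : ℝ => X (z.1, s • z.2)) t)
          (deriv (fun s : ℝ => X (z.1, s • z.2)) t) = G z.1 z.2 z.2) ∧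
      (∀ᶠ z in 𝓝 ((x₀, x₀) : E × E), ContDiffAt ℝ ∞ L z) ∧
      L (x₀, x₀) = 0 ∧
      (∀ᶠ z in 𝓝 ((x₀, x₀) : E × E), X (z.1, L z) = z.2) ∧
      (∀ᶠ z in 𝓝 ((x₀, 0) : E × E), L (z.1, X z) = z.2) ∧
      (∀ᶠ z in 𝓝 ((x₀, x₀) : E × E), ∀ ζ : E,
        (fderiv ℝ (fun c : E => G z.1 (L (z.1, c)) (L (z.1, c))) z.2 ζ) ^ 2 ≤
          4 * G z.1 (L z) (L z) * G z.2 ζ ζ) := by
  have hcompl : CompleteSpace E := FiniteDimensional.complete ℝ E
  obtain ⟨S, hS, hspray⟩ := exists_spray hU hG hpos hx₀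
  obtain ⟨X, hXc, hX0, hXd, hXode⟩ := exists_geodesic_map hS x₀
  have hX00 : X (x₀, 0) = x₀ := hX0.self_of_nhds
  have hXc0 : ContDiffAt ℝ ∞ X (x₀, 0) := hXc.self_of_nhds
  have hXt : Tendsto X (𝓝 ((x₀, 0) : E × E)) (𝓝 x₀) := by
    have h1 := hXc0.continuousAt.tendsto
    rwa [hX00] at h1
  have hXU : ∀ᶠ z in 𝓝 ((x₀, 0) : E × E), X z ∈ U := hXt.eventually (hU.mem_nhds hx₀)
  have hXs := hXt.eventually hspray
  -- the local logarithm
  have hbij : Function.Bijective (fun v : E => fderiv ℝ X (x₀, 0) (0, v)) := by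
    have h1 : HasFDerivAt (fun v : E => X (x₀, v)) (ContinuousLinearMap.id ℝ E) 0 :=
      hXd.self_of_nhds
    have h2 : HasFDerivAt X (fderiv ℝ X (x₀, 0)) (x₀, 0) :=
      (hXc0.differentiableAt (by simp)).hasFDerivAt
    have h3 : HasFDerivAt (fun v : E => ((x₀, v) : E × E)) (ContinuousLinearMap.inr ℝ E E) 0 :=
      hasFDerivAt_prodMk_right x₀ 0
    have h4 : HasFDerivAt (fun v : E => X (x₀, v))
        ((fderiv ℝ X (x₀, 0)).comp (ContinuousLinearMap.inr ℝ E E)) 0 := h2.comp 0 h3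
    have h5 := h4.unique h1
    have h6 : (fun v : E => fderiv ℝ X (x₀, 0) (0, v)) = id := by
      funext v
      have := congrArg (fun T : E →L[ℝ] E => T v) h5
      simpa only [id_eq, ContinuousLinearMap.comp_apply, ContinuousLinearMap.inr_apply,
        ContinuousLinearMap.id_apply] using this
    rw [h6]
    exact Function.bijective_id
  obtain ⟨L, hLc, hL0, hXL, hLX⟩ := param_inverse (n := ∞) hXc (by simp) hbij
  simp only [hX00] at hLc hL0 hXL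
  have hLt : Tendsto L (𝓝 ((x₀, x₀) : E × E)) (𝓝 0) := by
    have h1 := hLc.self_of_nhds.continuousAt.tendsto
    rwa [hL0] at h1
  -- a uniform radius
  obtain ⟨δ₁, hδ₁, h₁⟩ := Metric.eventually_nhds_iff_ball.1
    (hXc.and (hXU.and (hXs.and hXode)))
  obtain ⟨δ₂, hδ₂, h₂⟩ := Metric.eventually_nhds_iff_ball.1 (hX0.and hXd)
  have hball : ∀ x ∈ ball x₀ (min δ₁ δ₂), GeoBall G S x (fun v => X (x, v)) δ₁ := by
    intro x hx
    have hx2 : x ∈ ball x₀ δ₂ := ball_subset_ball (min_le_right _ _) hx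
    have hx1 : x ∈ ball x₀ δ₁ := ball_subset_ball (min_le_left _ _) hx
    have hmem : ∀ v ∈ ball (0 : E) δ₁, ((x, v) : E × E) ∈ ball ((x₀, 0) : E × E) δ₁ := by
      intro v hv
      rw [mem_ball, Prod.dist_eq]
      exact max_lt hx1 hv
    refine ⟨hδ₁, ?_, (h₂ x hx2).1, (h₂ x hx2).2, ?_, ?_, ?_, ?_, ?_⟩
    · intro v hv
      exact (h₁ _ (hmem v hv)).1.comp v (contDiffAt_const.prodMk contDiffAt_id)
    · intro v hv
      exact hG.contDiffAt (hU.mem_nhds (h₁ _ (hmem v hv)).2.1)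
    · intro v hv
      exact hsym _ (h₁ _ (hmem v hv)).2.1
    · intro v hv
      exact hpos _ (h₁ _ (hmem v hv)).2.1
    · intro v hv
      exact (h₁ _ (hmem v hv)).2.2.1
    · intro v hv
      exact (h₁ _ (hmem v hv)).2.2.2
  have hfst : ∀ᶠ z in 𝓝 ((x₀, 0) : E × E), z.1 ∈ ball x₀ (min δ₁ δ₂) :=
    (continuous_fst.tendsto ((x₀, 0) : E × E)).eventually (ball_mem_nhds _ (lt_min hδ₁ hδ₂))
  have hsnd : ∀ᶠ z in 𝓝 ((x₀, 0) : E × E), z.2 ∈ ball (0 : E) δ₁ :=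
    (continuous_snd.tendsto ((x₀, 0) : E × E)).eventually (ball_mem_nhds _ hδ₁)
  have hfst' : ∀ᶠ z in 𝓝 ((x₀, x₀) : E × E), z.1 ∈ ball x₀ (min δ₁ δ₂) :=
    (continuous_fst.tendsto ((x₀, x₀) : E × E)).eventually (ball_mem_nhds _ (lt_min hδ₁ hδ₂))
  refine ⟨X, L, S, hspray, hXode, hS, hXc, hXU, hX0, hXd, ?_, hLc, hL0, hXL, hLX, ?_⟩
  · filter_upwards [hfst, hsnd] with z hz1 hz2 t ht
    exact (hball z.1 hz1).speed hz2 ht
  · filter_upwards [hfst', hLc, hLt.eventually (ball_mem_nhds _ hδ₁),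
      eventually_eventually_nhds.2 hXL] with z hz1 hz2 hz3 hz4 ζ
    have h5 : ContDiffAt ℝ ∞ (fun c : E => L (z.1, c)) z.2 :=
      ContDiffAt.comp z.2 (g := L) (f := fun c : E => ((z.1, c) : E × E)) hz2
        (contDiffAt_const.prodMk contDiffAt_id)
    have h6 : Tendsto (fun c : E => ((z.1, c) : E × E)) (𝓝 z.2) (𝓝 z) := by
      have h7 : Continuous (fun c : E => ((z.1, c) : E × E)) := by fun_prop
      exact h7.tendsto z.2
    exact (hball z.1 hz1).eikonal (L := fun c => L (z.1, c)) (h5.differentiableAt (by simp)) hz3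
      (h6.eventually hz4) ζ

/-- from the equation on the rays of length one to the equation near zero -/
theorem ode_near {S : E → E →L[ℝ] E →L[ℝ] E} (hS : ContDiff ℝ ∞ S) {Y : E → E} (w : E)
    (hY : ∀ᶠ v in 𝓝 (0 : E), ∀ t ∈ Ioo (0 : ℝ) 1, deriv (deriv (fun s : ℝ => Y (s • v))) t =
      S (Y (t • v)) (deriv (fun s : ℝ => Y (s • v)) t) (deriv (fun s : ℝ => Y (s • v)) t))
    (hc : ContDiffAt ℝ ∞ (fun s : ℝ => Y (s • w)) 0) :
    ∀ᶠ t in 𝓝 (0 : ℝ), deriv (deriv (fun s : ℝ => Y (s • w))) t =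
      S (Y (t • w)) (deriv (fun s : ℝ => Y (s • w)) t) (deriv (fun s : ℝ => Y (s • w)) t) := by
  set c : ℝ → E := fun s => Y (s • w) with hcdef
  have h1 : ∀ᶠ t in 𝓝[≠] (0 : ℝ), deriv (deriv c) t = S (c t) (deriv c t) (deriv c t) := by
    have h2 : Tendsto (fun t : ℝ => (2 * t) • w) (𝓝 0) (𝓝 0) :=
      Continuous.tendsto' (by fun_prop) _ _ (by simp)
    filter_upwards [nhdsWithin_le_nhds (h2.eventually hY), self_mem_nhdsWithin] with t ht h0
    have h3 := ht (1 / 2) ⟨by norm_num, by norm_num⟩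
    have h4 : (fun s : ℝ => Y (s • (2 * t) • w)) = fun s => c (2 * t * s) := by
      funext s
      rw [smul_smul, mul_comm]
    have h5 : deriv (fun s => c (2 * t * s)) = fun s => (2 * t) • deriv c (2 * t * s) := by
      funext s
      exact deriv_comp_mul_left _ _ _
    have h6 : 2 * t * (1 / 2) = t := by ring
    have h7 : 2 * t ≠ 0 := mul_ne_zero two_ne_zero h0
    rw [h4, h5, deriv_fun_const_smul_field, deriv_comp_mul_left, smul_smul (1 / 2 : ℝ),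
      mul_comm (1 / 2 : ℝ)] at h3
    simp only [h6, map_smul, smul_apply] at h3
    exact smul_right_injective E h7 (smul_right_injective E h7 h3)
  have h2 : ContDiffAt ℝ 1 (deriv c) 0 := hc.derivWithin (by norm_cast)
  have h3 : ContinuousAt (deriv (deriv c)) 0 :=
    (h2.derivWithin (m := 0) (by norm_num)).continuousAt
  have h4 : ContinuousAt (fun t => S (c t) (deriv c t) (deriv c t)) 0 :=
    (((hS.continuous.continuousAt.comp hc.continuousAt).clm_apply h2.continuousAt).clm_apply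
      h2.continuousAt)
  have h5 := tendsto_nhds_unique_of_eventuallyEq (h3.tendsto.mono_left nhdsWithin_le_nhds)
    (h4.tendsto.mono_left nhdsWithin_le_nhds) h1
  rw [← nhdsNE_sup_pure 0, eventually_sup]
  exact ⟨h1, h5⟩

/-- uniqueness for the second order equation -/
theorem ode_unique {S : E → E →L[ℝ] E →L[ℝ] E} (hS : ContDiff ℝ ∞ S) {c d : ℝ → E} {t₀ : ℝ}
    (hc : ∀ᶠ t in 𝓝 t₀, ContDiffAt ℝ ∞ c t) (hd : ∀ᶠ t in 𝓝 t₀, ContDiffAt ℝ ∞ d t)
    (hc' : ∀ᶠ t in 𝓝 t₀, deriv (deriv c) t = S (c t) (deriv c t) (deriv c t))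
    (hd' : ∀ᶠ t in 𝓝 t₀, deriv (deriv d) t = S (d t) (deriv d t) (deriv d t))
    (h0 : c t₀ = d t₀) (h1 : deriv c t₀ = deriv d t₀) : c =ᶠ[𝓝 t₀] d := by
  let v : E × E → E × E := fun z => (z.2, S z.1 z.2 z.2)
  have hv : ContDiff ℝ 1 v := contDiff_snd.prodMk
    ((((hS.of_le (by norm_cast)).comp contDiff_fst).clm_apply contDiff_snd).clm_apply contDiff_snd)
  obtain ⟨K, s, hs, hK⟩ := (hv.contDiffAt (x := (c t₀, deriv c t₀))).exists_lipschitzOnWith
  have key : ∀ c : ℝ → E, (∀ᶠ t in 𝓝 t₀, ContDiffAt ℝ ∞ c t) →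
      (∀ᶠ t in 𝓝 t₀, deriv (deriv c) t = S (c t) (deriv c t) (deriv c t)) →
      s ∈ 𝓝 (c t₀, deriv c t₀) → ∀ᶠ t in 𝓝 t₀,
        HasDerivAt (fun t => (c t, deriv c t)) (v (c t, deriv c t)) t ∧ (c t, deriv c t) ∈ s := by
    intro c hc hc' hs
    have h2 : ∀ t, ContDiffAt ℝ ∞ c t → ContDiffAt ℝ 1 (deriv c) t := fun t ht =>
      ht.derivWithin (by norm_cast)
    have h3 := (hc.self_of_nhds.continuousAt.prodMk (h2 _ hc.self_of_nhds).continuousAt) hs
    filter_upwards [hc, hc', h3] with t h4 h5 h6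
    refine ⟨(h4.differentiableAt (by simp)).hasDerivAt.prodMk ?_, h6⟩
    have h7 := ((h2 t h4).differentiableAt (by simp)).hasDerivAt
    rwa [h5] at h7
  have h2 := ODE_solution_unique_of_eventually (v := fun _ => v) (s := fun _ => s)
    (Eventually.of_forall fun _ => hK) (key c hc hc' hs) (key d hd hd' (by rwa [← h0, ← h1]))
    (by rw [h0, h1])
  exact h2.mono fun t ht => congrArg Prod.fst ht

end

end Vale.Agent.P231W52
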