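import Vale.Agent.P231W52.Core
import Vale.Agent.P231W52.Defs
import Vale.Agent.P231Z.Oct.Ver

/-! P231W: distance preserving maps onto the five kinds of models are Riemannian isometries up
to scale. -/

set_option maxSynthPendingDepth 3
set_option linter.unusedSectionVars false

open Bundle Manifold Set Filter Module
open scoped ContDiff Manifold Topology

namespace Vale.Agent.P231W52

open Vale.Agent.P234 Vale.Agent.P231 Vale.Agent.P231Z

noncomputable section

variable {E : Type*} [NormedAddCommGroup E] [NormedSpace ℝ E] [FiniteDimensional ℝ E]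
  {M : Type*} [MetricSpace M] [ChartedSpace E M] [IsManifold 𝓘(ℝ, E) ∞ M]
  [RiemannianBundle (fun x : M => TangentSpace 𝓘(ℝ, E) x)]
  [IsContMDiffRiemannianBundle 𝓘(ℝ, E) ∞ E (fun x : M => TangentSpace 𝓘(ℝ, E) x)]
  {e : ∀ x : M, TangentSpace 𝓘(ℝ, E) x → M} {D : ℝ}
  {V : Type*} [NormedAddCommGroup V] [InnerProductSpace ℝ V] [FiniteDimensional ℝ V]
  {W : Type*} [NormedAddCommGroup W] [NormedSpace ℝ W] [FiniteDimensional ℝ W]

/-- the geometric data used by all rows -/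
structure Geo (e : ∀ x : M, TangentSpace 𝓘(ℝ, E) x → M) (D : ℝ) : Prop where
  F : Facts e
  dim : 1 ≤ finrank ℝ E
  pos : 0 < D
  inj : InjGE e D
  le : ∀ x y : M, dist x y ≤ D

theorem iso_of (G : Geo e D) (T : W →ₗ[ℝ] V) (hT : Function.Injective T) {B : W → W → ℝ}
    (hBT : ∀ X Y, B X Y = inner ℝ (T X) (T Y)) {Φ : M → W} {S : Set W} (hS : range Φ = S)
    {a b : ℝ} (hb : 0 < b)
    (hΦ : ∀ x y, B (Φ x) (Φ y) = a + b * Real.cos (Real.pi / D * dist x y)) :
    IsoOnto E B S (b * (Real.pi / D) ^ 2) Φ := by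
  have hP : ∀ x y, inner ℝ (T (Φ x)) (T (Φ y)) =
      a + b * Real.cos (Real.pi / D * dist x y) := fun x y => (hBT _ _).symm.trans (hΦ x y)
  obtain ⟨h1, h2⟩ := core (P := fun x => T (Φ x)) G.F G.dim G.pos G.inj G.le hP
  obtain ⟨T', hT'⟩ := T.exists_leftInverse_of_injective (LinearMap.ker_eq_bot.2 hT)
  have h3 : Φ = fun x => LinearMap.toContinuousLinearMap T' (T (Φ x)) := by
    funext x
    exact (LinearMap.congr_fun hT' (Φ x)).symm
  have h4 : ContMDiff 𝓘(ℝ, E) 𝓘(ℝ, W) ∞ Φ := by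
    rw [h3]
    exact (LinearMap.toContinuousLinearMap T').contDiff.contMDiff.comp h1
  refine ⟨h4, fun x y hxy => ?_, hS, fun x u v => ?_⟩
  · have h5 := sq_sub (P := fun x => T (Φ x)) hP x y
    rw [hxy, sub_self, inner_zero_left] at h5
    have h6 : Real.sin (Real.pi / D * dist x y / 2) = 0 := by
      have := (mul_eq_zero.1 h5.symm).resolve_left (by positivity)
      exact pow_eq_zero_iff two_ne_zero |>.1 this
    have hD := G.pos
    have h7 : Real.pi / D * dist x y ≤ Real.pi := by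
      rw [div_mul_eq_mul_div, div_le_iff₀ hD]
      exact mul_le_mul_of_nonneg_left (G.le x y) Real.pi_pos.le
    have h8 : 0 ≤ Real.pi / D * dist x y := by positivity
    have h9 := (Real.sin_eq_zero_iff_of_lt_of_lt (by linarith [Real.pi_pos])
      (by linarith [Real.pi_pos])).1 h6
    have h10 : Real.pi / D * dist x y = 0 := by linarith
    exact dist_eq_zero.1 ((mul_eq_zero.1 h10).resolve_left (by positivity))
  · have h5 : HasMFDerivAt 𝓘(ℝ, E) 𝓘(ℝ, V) (fun x => T (Φ x)) x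
        ((LinearMap.toContinuousLinearMap T).comp
          (mfderiv 𝓘(ℝ, E) 𝓘(ℝ, W) Φ x : E →L[ℝ] W)) :=
      (LinearMap.toContinuousLinearMap T).hasMFDerivAt.comp x
        (h4.mdifferentiableAt (by simp)).hasMFDerivAt
    have h6 := h2 x u v
    rw [h5.mfderiv] at h6
    exact (hBT _ _).trans h6

theorem unit_row (G : Geo e D) (T : W →ₗ[ℝ] V) (hT : Function.Injective T) {B : W → W → ℝ}
    (hBT : ∀ X Y, B X Y = inner ℝ (T X) (T Y)) {Φ : M → W} {S : Set W}
    (hS1 : ∀ X ∈ S, B X X = 1) (hS0 : ∀ X ∈ S, ∀ Y ∈ S, 0 ≤ B X Y) (hΦ : ∀ x, Φ x ∈ S)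
    (hd : ∀ x y, dist x y = 2 * D / Real.pi * Real.arccos √(B (Φ x) (Φ y)))
    (hon : ∀ X ∈ S, ∃ x, B (Φ x) X = 1) :
    IsoOnto E B S (Real.pi ^ 2 / (2 * D ^ 2)) Φ := by
  have key : ∀ X ∈ S, ∀ Y ∈ S, inner ℝ (T X - T Y) (T X - T Y) = 2 - 2 * B X Y := by
    intro X hX Y hY
    rw [real_inner_sub_sub_self, ← hBT, ← hBT, ← hBT, hS1 X hX, hS1 Y hY]
    ring
  have hS : range Φ = S := by
    refine Subset.antisymm (range_subset_iff.2 hΦ) fun X hX => ?_
    obtain ⟨x, hx⟩ := hon X hX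
    have h1 := key _ (hΦ x) X hX
    rw [hx, mul_one, sub_self, inner_self_eq_zero, sub_eq_zero] at h1
    exact ⟨x, hT h1⟩
  have hD := G.pos
  have h := iso_of G T hT hBT hS (a := 1 / 2) (b := 1 / 2) one_half_pos fun x y => by
    have h0 := hS0 _ (hΦ x) _ (hΦ y)
    have h1 : B (Φ x) (Φ y) ≤ 1 := by
      have h2 := key _ (hΦ x) _ (hΦ y)
      have h3 := real_inner_self_nonneg (x := T (Φ x) - T (Φ y))
      linarith
    have h2 : Real.pi / D * dist x y = 2 * Real.arccos √(B (Φ x) (Φ y)) := by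
      rw [hd]
      field_simp
    rw [h2, Real.cos_two_mul, Real.cos_arccos (by linarith [Real.sqrt_nonneg (B (Φ x) (Φ y))])
      (Real.sqrt_le_one.2 h1), Real.sq_sqrt h0]
    ring
  rwa [show 1 / 2 * (Real.pi / D) ^ 2 = Real.pi ^ 2 / (2 * D ^ 2) by field_simp] at h

/-- the sphere -/
theorem sphere_row (G : Geo e D) {Z : M → V} (h1 : ∀ x, ‖Z x‖ = 1)
    (h2 : ∀ x y, dist x y = D / Real.pi * Real.arccos (inner ℝ (Z x) (Z y)))
    (h3 : ∀ z, ‖z‖ = 1 → ∃ x, Z x = z) :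
    IsoOnto E (inner ℝ) (Metric.sphere (0 : V) 1) (Real.pi ^ 2 / D ^ 2) Z := by
  have hD := G.pos
  have h := iso_of G (LinearMap.id : V →ₗ[ℝ] V) Function.injective_id (B := inner ℝ)
    (fun _ _ => rfl) (Φ := Z) (S := Metric.sphere (0 : V) 1) (Subset.antisymm
      (range_subset_iff.2 fun x => mem_sphere_zero_iff_norm.2 (h1 x))
      fun z hz => h3 z (mem_sphere_zero_iff_norm.1 hz)) (a := 0) one_pos fun x y => by
    have h4 := abs_real_inner_le_norm (Z x) (Z y)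
    rw [h1, h1, mul_one, abs_le] at h4
    have h5 : Real.pi / D * dist x y = Real.arccos (inner ℝ (Z x) (Z y)) := by
      rw [h2]
      field_simp
    rw [h5, Real.cos_arccos h4.1 h4.2, zero_add, one_mul]
  rwa [one_mul, div_pow] at h

section
variable {K : Type*} [NormedDivisionRing K] [StarRing K] [NormedStarGroup K]
  [InnerProductSpace ℝ K] [FiniteDimensional ℝ K]

/-- matrices as vectors of a Euclidean space -/
def flat (K : Type*) [NormedAddCommGroup K] [InnerProductSpace ℝ K] (m : ℕ) :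
    (Fin m → Fin m → K) →ₗ[ℝ] PiLp 2 (fun _ : Fin m × Fin m => K) where
  toFun X := WithLp.toLp 2 fun p => X p.1 p.2
  map_add' _ _ := rfl
  map_smul' _ _ := rfl

theorem ipM_outer (re : K →+ ℝ) (h1 : ∀ a b : K, inner ℝ a b = re (a * star b))
    (h2 : ∀ a b : K, re (a * b) = re (b * a)) {m : ℕ} (z w : Fin m → K) :
    ipM (fun i j => z i * star (z j)) (fun i j => w i * star (w j)) =
      ‖∑ i, star (z i) * w i‖ ^ 2 := by
  rw [← real_inner_self_eq_norm_sq, h1, h2, star_sum, Finset.sum_mul_sum, map_sum]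
  refine Finset.sum_congr rfl fun i _ => ?_
  rw [map_sum]
  refine Finset.sum_congr rfl fun j _ => ?_
  rw [h1, star_mul, star_mul, star_star, star_star, ← mul_assoc, h2]
  simp only [mul_assoc]

/-- the projective spaces -/
theorem proj_row (G : Geo e D) (re : K →+ ℝ) (hr1 : ∀ a b : K, inner ℝ a b = re (a * star b))
    (hr2 : ∀ a b : K, re (a * b) = re (b * a)) {n : ℕ} {Z : M → Fin (n + 1) → K}
    (h1 : ∀ x, ∑ i, ‖Z x i‖ ^ 2 = 1)
    (h2 : ∀ x y, dist x y = 2 * D / Real.pi * Real.arccos ‖∑ i, star (Z x i) * Z y i‖)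
    (h3 : ∀ z : Fin (n + 1) → K, ∑ i, ‖z i‖ ^ 2 = 1 → ∃ x, ‖∑ i, star (Z x i) * z i‖ = 1) :
    IsoOnto E ipM (Proj K n) (Real.pi ^ 2 / (2 * D ^ 2)) (fun x i j => Z x i * star (Z x j)) ∧
      ∀ x y, dist x y = 2 * D / Real.pi * Real.arccos
        √(ipM (fun i j => Z x i * star (Z x j)) (fun i j => Z y i * star (Z y j))) := by
  have h4 : ∀ x y, dist x y = 2 * D / Real.pi * Real.arccos
      √(ipM (fun i j => Z x i * star (Z x j)) (fun i j => Z y i * star (Z y j))) := fun x y => by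
    rw [ipM_outer re hr1 hr2, Real.sqrt_sq (norm_nonneg _), h2]
  have h5 : ∀ X ∈ Proj K n, ∃ z : Fin (n + 1) → K, ∑ i, ‖z i‖ ^ 2 = 1 ∧
      X = fun i j => z i * star (z j) := fun X ⟨z, hz, hX⟩ =>
    ⟨z, hz, funext fun i => funext fun j => hX i j⟩
  refine ⟨unit_row G (flat K (n + 1)) (fun X Y h => ?_) (fun X Y => ?_) (fun X hX => ?_)
    (fun X hX Y hY => ?_) (fun x => ⟨Z x, h1 x, fun _ _ => rfl⟩) h4 fun X hX => ?_, h4⟩
  · funext i j
    exact congrArg (fun z : PiLp 2 (fun _ : Fin (n + 1) × Fin (n + 1) => K) => z (i, j)) h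
  · rw [PiLp.inner_apply, Fintype.sum_prod_type]
    rfl
  · obtain ⟨z, hz, rfl⟩ := h5 X hX
    unfold ipM
    simp only [real_inner_self_eq_norm_sq, norm_mul, norm_star, mul_pow, ← Finset.mul_sum, hz,
      mul_one]
  · obtain ⟨z, -, rfl⟩ := h5 X hX
    obtain ⟨w, -, rfl⟩ := h5 Y hY
    rw [ipM_outer re hr1 hr2]
    positivity
  · obtain ⟨z, hz, rfl⟩ := h5 X hX
    obtain ⟨x, hx⟩ := h3 z hz
    exact ⟨x, by rw [ipM_outer re hr1 hr2, hx, one_pow]⟩

end

theorem oip_adjL (u a b : Oct) : oip (omul (oconj u) a) b = oip a (omul u b) := by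
  simp only [oconj0, oconj1, oconj2, oconj3, oconj4, oconj5, oconj6, oconj7, omul0, omul1,
    omul2, omul3, omul4, omul5, omul6, omul7, oip_eq]
  ring

theorem oip_adjR (a u b : Oct) : oip a (omul u b) = oip (omul a (oconj b)) u := by
  simp only [oconj0, oconj1, oconj2, oconj3, oconj4, oconj5, oconj6, oconj7, omul0, omul1,
    omul2, omul3, omul4, omul5, omul6, omul7, oip_eq]
  ring

theorem oip_cs (x y : Oct) : oip x y ^ 2 ≤ oip x x * oip y y := by
  have h := discrim_le_zero (a := oip y y) (b := 2 * oip x y) (c := oip x x) fun t => by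
    have h1 := oip_self_nonneg (x + t • y)
    rw [oip_add_left, oip_add_right, oip_add_right, oip_smul_left, oip_smul_right,
      oip_smul_left, oip_smul_right, oip_comm y x] at h1
    linarith
  rw [discrim] at h
  linarith

theorem hopf_le (a b a' b' : Oct) : (oip a a' + oip b b') ^ 2 ≤
    oip a a * oip a' a' + oip b b * oip b' b' +
      2 * oip (omul a (oconj b)) (omul a' (oconj b')) := by
  rcases (oip_self_nonneg b').eq_or_lt with h0 | h0
  · obtain rfl : b' = 0 := oip_self_eq_zero h0.symm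
    rw [oconj_zero, omul_zero_right, oip_zero_right, oip_zero_right, oip_zero_right]
    linarith [oip_cs a a']
  · have h1 := oip_cs (omul (oconj (omul a' (oconj b'))) a + oip b' b' • b) b'
    rw [oip_add_left, oip_add_left, oip_add_right, oip_add_right, oip_omul, oip_conj, oip_omul,
      oip_conj, oip_smul_left, oip_smul_left, oip_smul_left, oip_smul_right, oip_smul_right,
      oip_comm b (omul _ _), oip_adjL, oip_adjL, omul_omul_conj, oip_smul_right, oip_adjR] at h1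
    refine le_of_mul_le_mul_left ?_ (mul_pos h0 h0)
    linarith

theorem ipA_self {X : Alb} (h : Ver X) : ipA X X = 1 := by
  obtain ⟨c, a, b, -, h1, rfl⟩ := exists_ver h
  rw [ipA_ver, oip_omul, oip_conj]
  linear_combination (c ^ 2 + oip a a + oip b b + 1) * h1

theorem ipA_nonneg {X Y : Alb} (hX : Ver X) (hY : Ver Y) : 0 ≤ ipA X Y := by
  obtain ⟨c, a, b, -, -, rfl⟩ := exists_ver hX
  obtain ⟨c', a', b', -, -, rfl⟩ := exists_ver hY
  rw [ipA_ver]
  nlinarith only [hopf_le a b a' b', sq_nonneg (c * c' + (oip a a' + oip b b'))]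

/-- octonion matrices as vectors of a Euclidean space -/
def flatA : Alb →ₗ[ℝ] PiLp 2 (fun _ : Fin 3 × Fin 3 × Bool => Quaternion ℝ) where
  toFun X := WithLp.toLp 2 fun p => bif p.2.2 then (X p.1 p.2.1).1 else (X p.1 p.2.1).2
  map_add' _ _ := by
    ext1 ⟨i, j, _ | _⟩ <;> rfl
  map_smul' _ _ := by
    ext1 ⟨i, j, _ | _⟩ <;> rfl

/-- the Cayley plane -/
theorem cayley_row (G : Geo e D) {Z : M → Alb} (h1 : ∀ x, Ver (Z x))
    (h2 : ∀ x y, dist x y = 2 * D / Real.pi * Real.arccos √(ipA (Z x) (Z y)))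
    (h3 : ∀ X, Ver X → ∃ x, Z x = X) :
    IsoOnto E ipA {X | Ver X} (Real.pi ^ 2 / (2 * D ^ 2)) Z := by
  refine unit_row G flatA (fun X Y h => ?_) (fun X Y => ?_) (fun X hX => ipA_self hX)
    (fun X hX Y hY => ipA_nonneg hX hY) h1 h2 fun X hX => ?_
  · funext i j
    exact Prod.ext
      (congrArg (fun z : PiLp 2 (fun _ : Fin 3 × Fin 3 × Bool => Quaternion ℝ) =>
        z (i, j, true)) h)
      (congrArg (fun z : PiLp 2 (fun _ : Fin 3 × Fin 3 × Bool => Quaternion ℝ) =>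
        z (i, j, false)) h)
  · rw [PiLp.inner_apply, Fintype.sum_prod_type]
    refine Finset.sum_congr rfl fun i _ => ?_
    rw [Fintype.sum_prod_type]
    refine Finset.sum_congr rfl fun j _ => ?_
    rw [Fintype.sum_bool]
    rfl
  · obtain ⟨x, hx⟩ := h3 X hX
    exact ⟨x, by rw [hx, ipA_self hX]⟩

/-- the conclusion of the projective rows -/
def ProjIso (E : Type*) [NormedAddCommGroup E] [NormedSpace ℝ E] (M : Type*) [MetricSpace M]
    [ChartedSpace E M] [RiemannianBundle (fun x : M => TangentSpace 𝓘(ℝ, E) x)]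
    (K : Type*) [NormedRing K] [Star K] [InnerProductSpace ℝ K] (n : ℕ) (D : ℝ) : Prop :=
  ∃ Φ : M → Fin (n + 1) → Fin (n + 1) → K,
    IsoOnto E ipM (Proj K n) (Real.pi ^ 2 / (2 * D ^ 2)) Φ ∧
      ∀ x y, dist x y = 2 * D / Real.pi * Real.arccos √(ipM (Φ x) (Φ y))

theorem real_row (G : Geo e D) {n : ℕ} {Z : M → EuclideanSpace ℝ (Fin (n + 1))}
    (h1 : ∀ x, ‖Z x‖ = 1)
    (h2 : ∀ x y, dist x y = 2 * D / Real.pi * Real.arccos |(inner ℝ (Z x) (Z y) : ℝ)|)
    (h3 : ∀ z, ‖z‖ = 1 → ∃ x, |(inner ℝ (Z x) z : ℝ)| = 1) : ProjIso E M ℝ n D := by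
  have h4 : ∀ z w : EuclideanSpace ℝ (Fin (n + 1)),
      |(inner ℝ z w : ℝ)| = ‖∑ i, star (z i) * w i‖ := fun z w => by
    rw [PiLp.inner_apply, Real.norm_eq_abs]
    congr 1
    exact Finset.sum_congr rfl fun i _ => by simp [mul_comm]
  refine ⟨_, proj_row G (AddMonoidHom.id ℝ) (fun a b => by simp [mul_comm])
    (fun a b => by simp [mul_comm]) (Z := fun x i => Z x i) (fun x => ?_) (fun x y => ?_)
    fun z hz => ?_⟩
  · rw [← EuclideanSpace.norm_sq_eq, h1, one_pow]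
  · rw [h2, h4]
  · have h5 : ‖(WithLp.toLp 2 z : EuclideanSpace ℝ (Fin (n + 1)))‖ = 1 := by
      rw [EuclideanSpace.norm_eq, hz, Real.sqrt_one]
    obtain ⟨x, hx⟩ := h3 _ h5
    exact ⟨x, (h4 _ _).symm.trans hx⟩

theorem complex_row (G : Geo e D) {n : ℕ} {Z : M → Fin (n + 1) → ℂ}
    (h1 : ∀ x, ∑ i, ‖Z x i‖ ^ 2 = 1)
    (h2 : ∀ x y, dist x y = 2 * D / Real.pi * Real.arccos ‖∑ i, starRingEnd ℂ (Z x i) * Z y i‖)
    (h3 : ∀ z : Fin (n + 1) → ℂ, ∑ i, ‖z i‖ ^ 2 = 1 →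
      ∃ x, ‖∑ i, starRingEnd ℂ (Z x i) * z i‖ = 1) : ProjIso E M ℂ n D :=
  ⟨_, proj_row G Complex.reLm.toAddMonoidHom
    (fun a b => by simp [Complex.inner, mul_comm])
    (fun a b => by rw [mul_comm]) h1 h2 h3⟩

theorem quat_row (G : Geo e D) {n : ℕ} {Z : M → Fin (n + 1) → Quaternion ℝ}
    (h1 : ∀ x, ∑ i, ‖Z x i‖ ^ 2 = 1)
    (h2 : ∀ x y, dist x y = 2 * D / Real.pi * Real.arccos ‖∑ i, star (Z x i) * Z y i‖)
    (h3 : ∀ z : Fin (n + 1) → Quaternion ℝ, ∑ i, ‖z i‖ ^ 2 = 1 →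
      ∃ x, ‖∑ i, star (Z x i) * z i‖ = 1) : ProjIso E M (Quaternion ℝ) n D :=
  ⟨_, proj_row G (QuaternionAlgebra.reₗ (-1 : ℝ) 0 (-1)).toAddMonoidHom (fun _ _ => rfl)
    (fun a b => by
      show (a * b).re = (b * a).re
      rw [Quaternion.re_mul, Quaternion.re_mul]
      ring) h1 h2 h3⟩

end

end Vale.Agent.P231W52
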