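import Vale.Agent.P231.Final.Defs
import Vale.Agent.P231Z.Oct.Defs
import Mathlib.Geometry.Manifold.SmoothEmbedding

/-! P231: the definitions used in the statement: the injectivity radius, Riemannian isometries up
to scale onto submanifolds of Euclidean spaces, the projective spaces and their metrics. -/

set_option maxSynthPendingDepth 3

open Bundle Manifold Set
open scoped ContDiff Manifold ENNReal

namespace Vale.Agent.P231Iso

noncomputable section

variable {E : Type*} [NormedAddCommGroup E] [NormedSpace ℝ E]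
  {M : Type*} [MetricSpace M] [ChartedSpace E M]
  [RiemannianBundle (fun x : M => TangentSpace 𝓘(ℝ, E) x)]

/-- `e p` restricted to the open ball of radius `r` of `T_p M` is a diffeomorphism onto its
image: it is a smooth bijection from the ball onto an open set, with smooth inverse. -/
def DiffeoOnBall (e : ∀ x : M, TangentSpace 𝓘(ℝ, E) x → M) (p : M) (r : ℝ) : Prop :=
  ∃ φ : PartialDiffeomorph 𝓘(ℝ, TangentSpace 𝓘(ℝ, E) p) 𝓘(ℝ, E) (TangentSpace 𝓘(ℝ, E) p) M ∞,
    φ.source = Metric.ball 0 r ∧ ∀ v ∈ φ.source, φ v = e p v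

/-- `inj_p`, the supremum of the radii `r` such that `e p` restricted to the open ball of radius
`r` is a diffeomorphism onto its image -/
def injAt (e : ∀ x : M, TangentSpace 𝓘(ℝ, E) x → M) (p : M) : ℝ≥0∞ :=
  ⨆ (r : ℝ) (_ : DiffeoOnBall e p r), ENNReal.ofReal r

/-- the injectivity radius `inj = inf_p inj_p` -/
def inj (e : ∀ x : M, TangentSpace 𝓘(ℝ, E) x → M) : ℝ≥0∞ := ⨅ p : M, injAt e p

variable (E) in
/-- `Φ` is a smooth embedding of `M` in the vector space `W` with image `S`, and its differential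
pulls the inner product `B` of `W` back to `c` times the Riemannian metric: `Φ` is a Riemannian
isometry from `(M, c g)` onto the submanifold `S` with the metric induced by `B`. -/
structure IsoOnto {W : Type*} [NormedAddCommGroup W] [NormedSpace ℝ W] (B : W → W → ℝ)
    (S : Set W) (c : ℝ) (Φ : M → W) : Prop where
  embedding : IsSmoothEmbedding 𝓘(ℝ, E) 𝓘(ℝ, W) ∞ Φ
  range_eq : range Φ = S
  pullback : ∀ (x : M) (u v : TangentSpace 𝓘(ℝ, E) x),
    B (mfderiv 𝓘(ℝ, E) 𝓘(ℝ, W) Φ x u) (mfderiv 𝓘(ℝ, E) 𝓘(ℝ, W) Φ x v) = c * inner ℝ u v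

/-- the projective space `KPⁿ` (`K = ℝ, ℂ, ℍ`): the matrices `z z*` of the orthogonal projections
onto the lines `z K` of `Kⁿ⁺¹`, `z` a unit vector -/
def Proj (K : Type*) [NormedRing K] [Star K] (n : ℕ) : Set (Fin (n + 1) → Fin (n + 1) → K) :=
  {X | ∃ z : Fin (n + 1) → K, ∑ i, ‖z i‖ ^ 2 = 1 ∧ ∀ i j, X i j = z i * star (z j)}

/-- the Euclidean inner product `Re tr (X Y*)` of matrices -/
def ipM {K : Type*} [NormedAddCommGroup K] [InnerProductSpace ℝ K] {m : ℕ}
    (X Y : Fin m → Fin m → K) : ℝ := ∑ i, ∑ j, inner ℝ (X i j) (Y i j)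

/-- the Fubini-Study metric: for a vector `w` tangent to the unit sphere of `Kᵐ` at `z`, the
squared length `|w|² - |⟨z, w⟩|²` of its component orthogonal to the line `z K` -/
def fs {K : Type*} [NormedRing K] [Star K] {m : ℕ} (z w : Fin m → K) : ℝ :=
  ∑ i, ‖w i‖ ^ 2 - ‖∑ i, star (z i) * w i‖ ^ 2

variable (E) in
/-- Near every point `Φ` lifts to a smooth map `z` to the unit sphere of `Kᵐ`, `Φ = z z*`, and the
Fubini-Study squared length of `dz v` is `c g(v, v)`. -/
def FSLift {K : Type*} [NormedRing K] [Star K] [NormedSpace ℝ K] {m : ℕ} (c : ℝ)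
    (Φ : M → Fin m → Fin m → K) : Prop :=
  ∀ p : M, ∃ (U : Set M) (z : M → Fin m → K), IsOpen U ∧ p ∈ U ∧
    ContMDiffOn 𝓘(ℝ, E) 𝓘(ℝ, Fin m → K) ∞ z U ∧ ∀ x ∈ U, ∑ i, ‖z x i‖ ^ 2 = 1 ∧
      (∀ i j, Φ x i j = z x i * star (z x j)) ∧ ∀ v : TangentSpace 𝓘(ℝ, E) x,
        fs (z x) (mfderiv 𝓘(ℝ, E) 𝓘(ℝ, Fin m → K) z x v) = c * inner ℝ v v

variable (E M) in
/-- `M`, of diameter `D`, is isometric up to scale to `KPⁿ`: there is a Riemannian isometry `Φ` of
`(M, π² / (2 D²) g)` onto the projectors, `π² / (4 D²) g` is the pull back of the Fubini-Study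
metric, and `d(x, y) = (2 D / π) arccos √(Re tr (Φ x (Φ y)*))`. -/
def IsoProj (K : Type*) [NormedRing K] [Star K] [InnerProductSpace ℝ K] (n : ℕ) (D : ℝ) : Prop :=
  ∃ Φ : M → Fin (n + 1) → Fin (n + 1) → K,
    IsoOnto E ipM (Proj K n) (Real.pi ^ 2 / (2 * D ^ 2)) Φ ∧
      FSLift E (Real.pi ^ 2 / (4 * D ^ 2)) Φ ∧
      ∀ x y, dist x y = 2 * D / Real.pi * Real.arccos √(ipM (Φ x) (Φ y))

end

end Vale.Agent.P231Iso
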